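import Vale.Agent.P011LH.Defs
import Vale.Agent.P011L.IF

/-!
P011 (helper1): the blocks for the groups of type `D₄`.
-/

set_option linter.all false

namespace Vale.Agent.P011LH

open Vale.Agent.P011L Vale.Agent.P011LD

/-- from the twisted action to the descent data -/
def START : Prop :=
  ∀ (k K : Type) [Field k] [NumberField k] [Field K] [Algebra k K] [IsAlgClosure k K]
    (T : Tw k (SD K)), ∃ (π : (K ≃ₐ[k] K) →* Equiv.Perm (Fin 3))
      (P : (K ≃ₐ[k] K) → WW (1 : Kˣ) 1 1 → WW 1 1 1), DD ⊤ π P ∧ Nonempty (T.fix ≃* Fix P) ∧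
      (T.Ani → An P) ∧ ∀ σ, π σ = 1 → T.Inn (SD K) σ

/-- the signs of the model -/
structure Sg {k K : Type} [Field k] [Field K] [Algebra k K] (a b c : Kˣ) (y : RR K) : Prop where
  neg : ∀ (φ : k →+* ℝ) (w : K →+* ℂ), Ov φ w → (w a).re < 0 → (w b).re < 0 ∧ (w c).re < 0
  pos : ∃ (φ : k →+* ℝ) (w : K →+* ℂ), Ov φ w ∧ (w a).re < 0 ∧
    ∀ i, (w (y i)).im = 0 → 0 < (w (y i)).re

/-- from the model to the groups of the tree -/
def DICT : Prop :=
  ∀ (k K : Type) [Field k] [NumberField k] [Field K] [Algebra k K] [IsAlgClosure k K]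
    (π : (K ≃ₐ[k] K) →* Equiv.Perm (Fin 3)) (a b c : Kˣ) (d : K) (y : RR K),
    Op ⊤ (fun σ => π σ = 1) → Md π a b c d y → Sg (k := k) a b c y → (∃ σ, π σ * π σ ≠ 1) →
    (∃ σ, π σ = 1 ∧ σ d = -d) → PSimple (Fix (mo π d y : _ → WW a b c → WW a b c))

/-- the game of signs -/
def SGN : Prop :=
  ∀ (k K : Type) [Field k] [NumberField k] [Field K] [Algebra k K] [IsAlgClosure k K]
    (π : (K ≃ₐ[k] K) →* Equiv.Perm (Fin 3)) (a b c : Kˣ) (d : K) (y : RR K),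
    Op ⊤ (fun σ => π σ = 1) → Md π a b c d y → (∃ σ, π σ * π σ ≠ 1) →
    An (mo π d y : _ → WW a b c → WW a b c) →
    (∀ (φ : k →+* ℝ) (w : K →+* ℂ), Ov φ w → (w a).re < 0 → ∃ w' κ, Ov φ w' ∧ Cc w' κ ∧
      ¬Qs (mo π d y κ : WW a b c → WW a b c)) →
    ∃ b' c' : Kˣ, Md π a b' c' d y ∧ Sg (k := k) a b' c' y ∧
      Iso ⊤ (mo π d y : _ → WW a b c → WW a b c) (mo π d y : _ → WW a b' c' → WW a b' c')

end Vale.Agent.P011LH
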