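import Vale.Agent.P011.D4.R1
import Vale.Agent.P011LD.H90
import Mathlib.Analysis.Complex.Basic
import Mathlib.NumberTheory.NumberField.Basic

/-!
P011 (helper1): descent data for the groups of type `D₄`.
-/

set_option linter.all false

namespace Vale.Agent.P011LH

open Vale.Agent.P011.D4 Vale.Agent.P011.D4.Oct Vale.Agent.P011.MPQ Vale.Agent.P011LD

/-- the three scalars -/
abbrev RR (K : Type) : Type := Fin 3 → K

/-- the three representations of dimension eight -/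
abbrev WW {K : Type} [Field K] (a b c : Kˣ) : Type := Fin 3 → Oct a b c

variable {k K : Type} [Field k] [Field K] [Algebra k K] {a b c a' b' c' : Kˣ}

/-- the symmetric product -/
def bt (x y : WW a b c) : WW a b c := fun i => star (x (i + 1) * y (i + 2) + y (i + 1) * x (i + 2))

/-- the action on the scalars -/
def ac (σ : K ≃ₐ[k] K) (π : Equiv.Perm (Fin 3)) : RR K →+* RR K :=
  Pi.ringHom fun i => (σ : K →+* K).comp (Pi.evalRingHom _ (π.symm i))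

/-- equality up to scalars -/
def Pr {X : Type} (f g : X → WW a b c) : Prop := ∃ u : (RR K)ˣ, ∀ x, f x = u • g x

/-- semilinear similitudes with multiplier `l` -/
structure Sm (σ : K ≃ₐ[k] K) (π : Equiv.Perm (Fin 3)) (l : (RR K)ˣ) (f : WW a b c → WW a' b' c') :
    Prop where
  add : ∀ x y, f (x + y) = f x + f y
  smul : ∀ (u : RR K) x, f (u • x) = ac σ π u • f x
  bij : Function.Bijective f
  mul : ∀ x y, f (bt x y) = l • bt (f x) (f y)

/-- semilinear similitudes -/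
def Sim (σ : K ≃ₐ[k] K) (π : Equiv.Perm (Fin 3)) (f : WW a b c → WW a' b' c') : Prop :=
  ∃ l, Sm σ π l f

/-- descent data -/
structure DD (Γ : Subgroup (K ≃ₐ[k] K)) (π : (K ≃ₐ[k] K) →* Equiv.Perm (Fin 3))
    (P : (K ≃ₐ[k] K) → WW a b c → WW a b c) : Prop where
  sim : ∀ σ ∈ Γ, Sim σ (π σ) (P σ)
  mul : ∀ σ ∈ Γ, ∀ τ ∈ Γ, Pr (fun x => P σ (P τ x)) (P (σ * τ))
  cont : ∀ x y, Op Γ fun σ => ∃ u : (RR K)ˣ, P σ x = u • x ∧ P σ y = u • y
  ker : Op Γ fun σ => π σ = 1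

/-- the spin group -/
def Spin (a b c : Kˣ) : Subgroup (WW a b c ≃ₗ[RR K] WW a b c) where
  carrier := {g | ∀ x y, g (bt x y) = bt (g x) (g y)}
  mul_mem' hg hh x y := by
    rw [LinearEquiv.mul_apply, LinearEquiv.mul_apply, LinearEquiv.mul_apply, hh, hg]
  one_mem' _ _ := rfl
  inv_mem' {g} hg x y := g.injective (by
    rw [hg, LinearEquiv.coe_inv, g.apply_symm_apply, g.apply_symm_apply, g.apply_symm_apply])

/-- the rational points -/
def Fix (P : (K ≃ₐ[k] K) → WW a b c → WW a b c) : Subgroup (Spin a b c) where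
  carrier := {g | ∀ σ x, g.1 (P σ x) = P σ (g.1 x)}
  mul_mem' {g h} hg hh σ x := by
    rw [Subgroup.coe_mul, LinearEquiv.mul_apply, LinearEquiv.mul_apply, hh, hg]
  one_mem' _ _ := rfl
  inv_mem' {g} hg σ x := g.1.injective (by
    rw [hg, Subgroup.coe_inv, LinearEquiv.coe_inv, g.1.apply_symm_apply, g.1.apply_symm_apply])

/-- isomorphic data -/
def Iso (Γ : Subgroup (K ≃ₐ[k] K)) (P : (K ≃ₐ[k] K) → WW a b c → WW a b c)
    (P' : (K ≃ₐ[k] K) → WW a' b' c' → WW a' b' c') : Prop :=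
  ∃ ψ, Sim (1 : K ≃ₐ[k] K) 1 ψ ∧ ∀ σ ∈ Γ, Pr (fun x => ψ (P σ x)) fun x => P' σ (ψ x)

/-- anisotropy -/
def An (P : (K ≃ₐ[k] K) → WW a b c → WW a b c) : Prop :=
  ∀ l : Kˣ →* Spin a b c,
    (∃ A B C : WW a b c → WW a b c, ∀ t x, (l t).1 x = A x + t.1 • B x + (t⁻¹).1 • C x) →
    (∀ σ t x, P σ ((l t).1 x) = (l (Units.map (σ : K →* K) t)).1 (P σ x)) → ∀ t, l t = 1

/-- a stable singular point -/
def Qs (f : WW a b c → WW a b c) : Prop :=
  ∃ x, (∀ i, x i ≠ 0) ∧ bt x x = 0 ∧ ∃ u : (RR K)ˣ, f x = u • x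

/-- the action on the coefficients of a quaternion -/
def cq (σ : K ≃ₐ[k] K) (x : Qt a b) : Qt a b := ⟨σ x.re, σ x.imI, σ x.imJ, σ x.imK⟩

/-- the action on the coefficients of an octonion -/
def cm (σ : K ≃ₐ[k] K) (x : Oct a b c) : Oct a b c := ⟨cq σ x.fst, cq σ x.snd⟩

/-- the conjugation for odd permutations -/
def cj (π : Equiv.Perm (Fin 3)) (x : Oct a b c) : Oct a b c :=
  if Equiv.Perm.sign π = 1 then x else star x

/-- the same map in all places -/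
def dg (π : Equiv.Perm (Fin 3)) (α : Oct a b c → Oct a b c) (x : WW a b c) : WW a b c :=
  fun i => cj π (α (x (π.symm i)))

/-- the standard data -/
def std (π : (K ≃ₐ[k] K) →* Equiv.Perm (Fin 3)) (σ : K ≃ₐ[k] K) : WW a b c → WW a b c :=
  dg (π σ) (cm σ)

/-- the similitudes given by three quaternions -/
def gq (c' : Kˣ) (p : Fin 3 → Qt a b) (s : K) (x : WW a b c) : WW a b c' :=
  fun i => ⟨star (p (i + 1)) * (x i).fst * p (i + 2), (s / nrd (p i)) • ((x i).snd * p i)⟩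

/-- `e₊ + t e₋` -/
def et (d t : K) : Qt a b := ⟨(1 + t) / 2, (1 - t) / (2 * d), 0, 0⟩

open Classical in
/-- the model -/
noncomputable def mo (π : (K ≃ₐ[k] K) →* Equiv.Perm (Fin 3)) (d : K) (y : RR K) (σ : K ≃ₐ[k] K)
    (x : WW a b c) : WW a b c :=
  if σ d = d then std π σ x else gq c (fun i => et d (y i)) 1 (std π σ x)

/-- the constants of the model -/
structure Md (π : (K ≃ₐ[k] K) →* Equiv.Perm (Fin 3)) (a b c : Kˣ) (d : K) (y : RR K) : Prop where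
  fa : ∀ σ : K ≃ₐ[k] K, σ a = a
  fb : ∀ σ : K ≃ₐ[k] K, σ b = b
  fc : ∀ σ : K ≃ₐ[k] K, σ c = c
  sq : d ^ 2 = a
  fy : ∀ σ, ac σ (π σ) y = y
  nm : y 0 * y 1 * y 2 = 1

/-- `κ` is the complex conjugation for `w` -/
def Cc (w : K →+* ℂ) (κ : K ≃ₐ[k] K) : Prop := ∀ x, w (κ x) = starRingEnd ℂ (w x)

/-- `w` lies over the real place `φ` -/
def Ov (φ : k →+* ℝ) (w : K →+* ℂ) : Prop := ∀ x, w (algebraMap k K x) = φ x

/-- open subgroups -/
def Opn (Γ : Subgroup (K ≃ₐ[k] K)) : Prop := Op ⊤ fun σ => σ ∈ Γ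

/-- splitting of an algebra with involution over a cubic extension -/
def BR2 : Prop :=
  ∀ (k K : Type) [Field k] [NumberField k] [Field K] [Algebra k K] [IsAlgClosure k K] (V : Type)
    [AddCommGroup V] [Module K V] [FiniteDimensional K V] [Nontrivial V] (B : V →ₗ[K] V →ₗ[K] K)
    (Γ Γ' : Subgroup (K ≃ₐ[k] K)) (p : (K ≃ₐ[k] K) → V → V) (S : Set (k →+* ℝ)),
    (∀ v w, B v w = B w v) → (∀ v, (∀ w, B v w = 0) → v = 0) → Γ.index = 3 → Opn Γ → Opn Γ' →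
    (∀ σ ∈ Γ, (∀ v w, p σ (v + w) = p σ v + p σ w) ∧ (∀ (t : K) v, p σ (t • v) = σ t • p σ v) ∧
      Function.Bijective (p σ) ∧ (∃ μ : K, ∀ v w, B (p σ v) (p σ w) = μ * σ (B v w)) ∧
      ∀ τ ∈ Γ, ∃ t : K, ∀ v, p σ (p τ v) = t • p (σ * τ) v) →
    (∀ v w, Op Γ fun σ => ∃ t : K, p σ v = t • v ∧ p σ w = t • w) →
    (∀ φ ∈ S, ∀ w κ, Ov φ w → Cc w κ → κ ∈ Γ → ∃ v, v ≠ 0 ∧ ∃ t : K, p κ v = t • v) →
    ∃ (a : k) (d : K), d ≠ 0 ∧ d ^ 2 = algebraMap k K a ∧ (∃ σ ∈ Γ', σ d = -d) ∧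
      (∀ φ, 0 < φ a ↔ φ ∈ S) ∧ ∃ v, v ≠ 0 ∧ ∀ σ ∈ Γ, σ d = d → ∃ t : K, p σ v = t • v

/-- Albert algebras over number fields are reduced -/
def RED : Prop :=
  ∀ (k K : Type) [Field k] [NumberField k] [Field K] [Algebra k K] [IsAlgClosure k K] (a b c : Kˣ)
    (Γ : Subgroup (K ≃ₐ[k] K)) (π : (K ≃ₐ[k] K) →* Equiv.Perm (Fin 3))
    (P : (K ≃ₐ[k] K) → WW a b c → WW a b c), Opn Γ → Op Γ (fun σ => π σ = 1) → Sl Γ P →
    (∀ σ ∈ Γ, Sm σ (π σ) 1 (P σ)) →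
    ∃ (e : RR K) (x : WW a b c), (∀ σ ∈ Γ, P σ x = x) ∧ ∀ i, e i ≠ 0 ∧
      norm (x i) = e (i + 1) * e (i + 2) ∧ star (x (i + 1) * x (i + 2)) = e i • x i

end Vale.Agent.P011LH
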