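import Vale.Agent.P011LH.IF

/-!
P011 (helper1): the calculus of similitudes.
-/

set_option linter.all false

namespace Vale.Agent.P011LH

open Vale.Agent.P011.D4 Vale.Agent.P011.D4.Oct Vale.Agent.P011.MPQ Vale.Agent.P011LD
open Equiv Function

variable {k K : Type} [Field k] [Field K] [Algebra k K] {a b c a' b' c' a'' b'' c'' : Kˣ}
  {σ τ : K ≃ₐ[k] K} {π ρ : Perm (Fin 3)}

theorem ac_apply (u : RR K) (i) : ac σ π u i = σ (u (π.symm i)) := rfl

theorem ac_perm (u : RR K) (i) : ac σ π u (π i) = σ (u i) := by rw [ac_apply, symm_apply_apply]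

theorem ac_one (u : RR K) : ac (1 : K ≃ₐ[k] K) 1 u = u := rfl

theorem ac_mul (u : RR K) : ac (σ * τ) (π * ρ) u = ac σ π (ac τ ρ u) := rfl

theorem ac_const (t : K) : ac σ π (fun _ => t) = fun _ => σ t := rfl

/-- the action on the units -/
def au (σ : K ≃ₐ[k] K) (π : Perm (Fin 3)) : (RR K)ˣ →* (RR K)ˣ := Units.map (ac σ π).toMonoidHom

theorem au_val (u : (RR K)ˣ) : (au σ π u).1 = ac σ π u.1 := rfl

theorem au_one (u : (RR K)ˣ) : au (1 : K ≃ₐ[k] K) 1 u = u := rfl

theorem au_mul (u : (RR K)ˣ) : au (σ * τ) (π * ρ) u = au σ π (au τ ρ u) := rfl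

theorem une (u : (RR K)ˣ) (i) : u.1 i ≠ 0 := fun h => by
  have := congrFun u.mul_inv i
  rw [Pi.mul_apply, h, zero_mul] at this
  exact zero_ne_one this

/-- units from their entries -/
def mku (u : RR K) (h : ∀ i, u i ≠ 0) : (RR K)ˣ :=
  ⟨u, fun i => (u i)⁻¹, funext fun i => mul_inv_cancel₀ (h i), funext fun i => inv_mul_cancel₀ (h i)⟩

theorem uinv (u : (RR K)ˣ) (i) : (u⁻¹).1 i = (u.1 i)⁻¹ :=
  eq_inv_of_mul_eq_one_left (congrFun u.inv_mul i)

theorem usm (u : (RR K)ˣ) (x : WW a b c) (i) : (u • x) i = u.1 i • x i := rfl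

theorem rsm (u : RR K) (x : WW a b c) (i) : (u • x) i = u i • x i := rfl

theorem usm' (u : (RR K)ˣ) (x : WW a b c) : u • x = u.1 • x := rfl

theorem ksm (t : K) (x : WW a b c) : t • x = (fun _ => t : RR K) • x := rfl

theorem f11 (i : Fin 3) : i + 1 + 1 = i + 2 := by revert i; decide
theorem f12 (i : Fin 3) : i + 1 + 2 = i := by revert i; decide
theorem f21 (i : Fin 3) : i + 2 + 1 = i := by revert i; decide
theorem f22 (i : Fin 3) : i + 2 + 2 = i + 1 := by revert i; decide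
theorem n1 (i : Fin 3) : i + 1 ≠ i := by revert i; decide
theorem n2 (i : Fin 3) : i + 2 ≠ i := by revert i; decide
theorem n12 (i : Fin 3) : i + 1 ≠ i + 2 := by revert i; decide
theorem c3 (i j : Fin 3) : j = i ∨ j = i + 1 ∨ j = i + 2 := by revert i j; decide

theorem perm_cases (π : Perm (Fin 3)) :
    (Perm.sign π = 1 ∧ ∀ i, π (i + 1) = π i + 1 ∧ π (i + 2) = π i + 2) ∨
      (Perm.sign π = -1 ∧ ∀ i, π (i + 1) = π i + 2 ∧ π (i + 2) = π i + 1) := by
  revert π; decide

theorem prod3 (u : RR K) (i : Fin 3) : u i * u (i + 1) * u (i + 2) = u 0 * u 1 * u 2 := by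
  fin_cases i <;> simp <;> ring

theorem prod_perm (u : RR K) : u (π 0) * u (π 1) * u (π 2) = u 0 * u 1 * u 2 := by
  rcases perm_cases π with ⟨-, h⟩ | ⟨-, h⟩
  · rw [← prod3 u (π 0), ← (h 0).1, ← (h 0).2]; rfl
  · rw [← prod3 u (π 0), ← (h 0).1, ← (h 0).2, mul_right_comm]; rfl

theorem prod_ac (u : RR K) : ac σ π u 0 * ac σ π u 1 * ac σ π u 2 = σ (u 0 * u 1 * u 2) := by
  rw [← prod_perm (π := π), ac_perm, ac_perm, ac_perm, map_mul, map_mul]

/-- the adjoint -/
def sh (u : (RR K)ˣ) : (RR K)ˣ :=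
  mku (fun i => u.1 (i + 1) * u.1 (i + 2)) fun i => mul_ne_zero (une u _) (une u _)

theorem sh_val (u : (RR K)ˣ) (i) : (sh u).1 i = u.1 (i + 1) * u.1 (i + 2) := rfl

theorem sh_perm (u : RR K) (i) : u (π i + 1) * u (π i + 2) = u (π (i + 1)) * u (π (i + 2)) := by
  rcases perm_cases π with ⟨-, h⟩ | ⟨-, h⟩ <;> rw [(h i).1, (h i).2]
  ring

/-- one half of the product -/
def pr (x y : WW a b c) : WW a b c := fun i => star (x (i + 1) * y (i + 2))

theorem bt_eq (x y : WW a b c) : bt x y = pr x y + pr y x := funext fun i => star_add _ _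

theorem bt_comm (x y : WW a b c) : bt x y = bt y x := by rw [bt_eq, bt_eq, add_comm]

theorem pr_smul (u v : RR K) (x y : WW a b c) :
    pr (u • x) (v • y) = (fun i => u (i + 1) * v (i + 2) : RR K) • pr x y := funext fun i => by
  simp only [pr, rsm, smul_mul_oct, mul_smul_oct, star_smul_oct, smul_smul, mul_comm]

theorem bt_smul (u : (RR K)ˣ) (x y : WW a b c) : bt (u • x) (u • y) = sh u • bt x y := by
  rw [bt_eq, bt_eq, usm', usm', pr_smul, pr_smul, smul_add]; rfl

theorem bt_single (i : Fin 3) (v w : Oct a b c) :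
    bt (Pi.single (i + 1) v : WW a b c) (Pi.single (i + 2) w) = Pi.single i (star (v * w)) := by
  funext j
  rcases c3 i j with rfl | rfl | rfl <;>
    simp [bt, f11, f12, f21, f22, n1, n2, n12, (n1 _).symm, (n2 _).symm, (n12 _).symm]

theorem cj_even (h : Perm.sign π = 1) (x : Oct a b c) : cj π x = x := if_pos h

theorem cj_odd (h : Perm.sign π = -1) (x : Oct a b c) : cj π x = star x :=
  if_neg (by rw [h]; decide)

theorem cj_one (x : Oct a b c) : cj 1 x = x := cj_even (map_one _) x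

theorem cj_cj (x : Oct a b c) : cj π (cj π x) = x := by
  rcases perm_cases π with ⟨h, -⟩ | ⟨h, -⟩
  · rw [cj_even h, cj_even h]
  · rw [cj_odd h, cj_odd h, star_star]

theorem cj_mul (x : Oct a b c) : cj (π * ρ) x = cj π (cj ρ x) := by
  have e := map_mul Perm.sign π ρ
  rcases perm_cases π with ⟨h, -⟩ | ⟨h, -⟩ <;> rcases perm_cases ρ with ⟨g, -⟩ | ⟨g, -⟩ <;>
    rw [h, g] at e
  · rw [cj_even h, cj_even g, cj_even (e.trans (by decide))]
  · rw [cj_even h, cj_odd g, cj_odd (e.trans (by decide))]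
  · rw [cj_odd h, cj_even g, cj_odd (e.trans (by decide))]
  · rw [cj_odd h, cj_odd g, cj_even (e.trans (by decide)), star_star]

theorem cj_add (x y : Oct a b c) : cj π (x + y) = cj π x + cj π y := by
  unfold cj; split_ifs; exacts [rfl, star_add _ _]

theorem cj_smul (t : K) (x : Oct a b c) : cj π (t • x) = t • cj π x := by
  unfold cj; split_ifs; exacts [rfl, star_smul_oct _ _]

theorem cj_norm (x : Oct a b c) : norm (cj π x) = norm x := by
  unfold cj; split_ifs; exacts [rfl, norm_star _]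

theorem cj_bil (x y : Oct a b c) : bil (cj π x) (cj π y) = bil x y := by
  unfold cj; split_ifs; exacts [rfl, bil_star_star _ _]

theorem cj_star (x : Oct a b c) : cj π (star x) = star (cj π x) := by
  unfold cj; split_ifs <;> rfl

theorem cj_unit : cj π (1 : Oct a b c) = 1 := by
  unfold cj; split_ifs; exacts [rfl, star_one _]

theorem cj_bij : Bijective (cj π : Oct a b c → Oct a b c) := Involutive.bijective cj_cj

/-- the three components of a similitude -/
structure Cm (σ : K ≃ₐ[k] K) (m : RR K) (g : Fin 3 → Oct a b c → Oct a' b' c') : Prop where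
  add : ∀ i v w, g i (v + w) = g i v + g i w
  smul : ∀ i (t : K) v, g i (t • v) = σ t • g i v
  bij : ∀ i, Bijective (g i)
  mul : ∀ i v w, g i (star (v * w)) = m i • star (g (i + 1) v * g (i + 2) w)

/-- the map with the given components -/
def as (π : Perm (Fin 3)) (g : Fin 3 → Oct a b c → Oct a' b' c') (x : WW a b c) : WW a' b' c' :=
  fun j => cj π (g (π.symm j) (x (π.symm j)))

theorem as_perm (g : Fin 3 → Oct a b c → Oct a' b' c') (x : WW a b c) (i) :
    as π g x (π i) = cj π (g i (x i)) := by rw [as, symm_apply_apply]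

theorem ext_perm (π : Perm (Fin 3)) {X : Type} {x y : Fin 3 → X} (h : ∀ i, x (π i) = y (π i)) :
    x = y := funext fun j => by rw [← π.apply_symm_apply j, h]

/-- the components -/
def cp (π : Perm (Fin 3)) (f : WW a b c → WW a' b' c') (i : Fin 3) (v : Oct a b c) : Oct a' b' c' :=
  cj π (f (Pi.single i v) (π i))

section cm

variable {m : RR K} {g : Fin 3 → Oct a b c → Oct a' b' c'}

theorem Cm.zero (h : Cm σ m g) (i) : g i 0 = 0 := (AddMonoidHom.mk' (g i) (h.add i)).map_zero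

theorem Cm.neg (h : Cm σ m g) (i v) : g i (-v) = -g i v := (AddMonoidHom.mk' (g i) (h.add i)).map_neg v

theorem Cm.sub (h : Cm σ m g) (i v w) : g i (v - w) = g i v - g i w :=
  (AddMonoidHom.mk' (g i) (h.add i)).map_sub v w

theorem Cm.ne (h : Cm σ m g) (i) {v} (hv : v ≠ 0) : g i v ≠ 0 := fun e =>
  hv ((h.bij i).1 (e.trans (h.zero i).symm))

theorem oct_ne : (1 : Oct a b c) ≠ 0 := fun h => by
  have := congrArg Oct.norm h
  simp at this

theorem Cm.norm (h : Cm σ m g) (i v) : σ (norm v) = m (i + 1) * m (i + 2) * norm (g i v) := by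
  have e1 := h.mul (i + 1) (star (v * 1)) v
  have e2 := h.mul (i + 2) v 1
  rw [f11, f12] at e1
  rw [f21, f22] at e2
  rw [e2, star_mul, star_star, star_mul_mul, h.smul, smul_mul_oct, star_smul_oct, star_mul,
    star_star, star_mul_mul, smul_smul, smul_smul] at e1
  exact smul_left_injective K (h.ne (i + 1) oct_ne) e1

theorem Cm.bil (h : Cm σ m g) (i v w) : σ (bil v w) = m (i + 1) * m (i + 2) * bil (g i v) (g i w) := by
  rw [Oct.bil, Oct.bil, map_sub, map_sub, h.norm i, h.norm i, h.norm i, h.add]; ring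

theorem Cm.pr_even (h : Cm σ m g) (e : Perm.sign π = 1) (x y : WW a b c) (i) :
    as π g (pr x y) (π i) = m i • pr (as π g x) (as π g y) (π i) := by
  rcases perm_cases π with ⟨-, hp⟩ | ⟨hs, -⟩
  · rw [as_perm, pr, pr, h.mul, ← (hp i).1, ← (hp i).2, as_perm, as_perm]
    simp only [cj_even e]
  · exact absurd (e.symm.trans hs) (by decide)

theorem Cm.pr_odd (h : Cm σ m g) (e : Perm.sign π = -1) (x y : WW a b c) (i) :
    as π g (pr x y) (π i) = m i • pr (as π g y) (as π g x) (π i) := by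
  rcases perm_cases π with ⟨hs, -⟩ | ⟨-, hp⟩
  · exact absurd (hs.symm.trans e) (by decide)
  · rw [as_perm, pr, pr, h.mul, ← (hp i).1, ← (hp i).2, as_perm, as_perm]
    simp only [cj_odd e, star_smul_oct, star_mul, star_star]

theorem Cm.as_add (h : Cm σ m g) (x y : WW a b c) : as π g (x + y) = as π g x + as π g y :=
  funext fun j => by rw [as, Pi.add_apply, h.add, cj_add]; rfl

theorem Cm.sm {l : (RR K)ˣ} (h : Cm σ m g) (hl : ∀ i, l.1 (π i) = m i) : Sm σ π l (as π g) := by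
  refine ⟨h.as_add, fun u x => funext fun j => ?_, ⟨fun x y e => funext fun i => ?_, fun y => ?_⟩,
    fun x y => ext_perm π fun i => ?_⟩
  · rw [as, rsm, h.smul, cj_smul]; rfl
  · have := congrFun e (π i)
    rw [as_perm, as_perm] at this
    exact (h.bij i).1 (cj_bij.1 this)
  · choose x hx using fun i => (h.bij i).2 (cj π (y (π i)))
    exact ⟨x, ext_perm π fun i => by rw [as_perm, hx, cj_cj]⟩
  · rw [bt_eq, bt_eq, h.as_add, usm, hl, Pi.add_apply, Pi.add_apply, smul_add]
    rcases perm_cases π with ⟨e, -⟩ | ⟨e, -⟩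
    · rw [h.pr_even e, h.pr_even e]
    · rw [h.pr_odd e, h.pr_odd e, add_comm]

end cm

section sm

variable {l l' : (RR K)ˣ} {f : WW a b c → WW a' b' c'} {g : WW a' b' c' → WW a'' b'' c''}

theorem Sm.zero (h : Sm σ π l f) : f 0 = 0 := (AddMonoidHom.mk' f h.add).map_zero

theorem Sm.neg (h : Sm σ π l f) (x) : f (-x) = -f x := (AddMonoidHom.mk' f h.add).map_neg x

theorem Sm.sub (h : Sm σ π l f) (x y) : f (x - y) = f x - f y :=
  (AddMonoidHom.mk' f h.add).map_sub x y

theorem Sm.usmul (h : Sm σ π l f) (u : (RR K)ˣ) (x) : f (u • x) = au σ π u • f x := h.smul u.1 x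

theorem Sm.ksmul (h : Sm σ π l f) (t : K) (x) : f (t • x) = σ t • f x := h.smul (fun _ => t) x

theorem single_eq (x : WW a b c) (i) : (Pi.single i (x i) : WW a b c) = (Pi.single i 1 : RR K) • x :=
  funext fun j => by
    rw [rsm]
    by_cases e : j = i
    · rw [e, Pi.single_eq_same, Pi.single_eq_same, one_smul]
    · rw [Pi.single_eq_of_ne e, Pi.single_eq_of_ne e, zero_smul]

theorem Sm.apply (h : Sm σ π l f) (x) (i) : f x (π i) = cj π (cp π f i (x i)) := by
  rw [cp, cj_cj, single_eq, h.smul, rsm, ac_perm, Pi.single_eq_same, map_one, one_smul]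

theorem Sm.eq_as (h : Sm σ π l f) : f = as π (cp π f) :=
  funext fun x => ext_perm π fun i => by rw [h.apply, as_perm]

theorem Sm.single (h : Sm σ π l f) (i v) :
    f (Pi.single i v) = Pi.single (π i) (cj π (cp π f i v)) := ext_perm π fun j => by
  by_cases e : j = i
  · rw [e, h.apply, Pi.single_eq_same, Pi.single_eq_same]
  · rw [h.apply, Pi.single_eq_of_ne e, Pi.single_eq_of_ne (π.injective.ne e), cp, cj_cj,
      Pi.single_zero, h.zero]
    rfl

theorem Sm.cm (h : Sm σ π l f) : Cm σ (fun i => l.1 (π i)) (cp π f) := by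
  refine ⟨fun i v w => ?_, fun i t v => ?_, fun i => ⟨fun v w e => ?_, fun w => ?_⟩, fun i v w => ?_⟩
  · rw [cp, Pi.single_add, h.add, Pi.add_apply, cj_add]; rfl
  · rw [cp, Pi.single_smul, h.ksmul, Pi.smul_apply, cj_smul]; rfl
  · have : f (Pi.single i v) = f (Pi.single i w) := by rw [h.single, h.single, e]
    simpa using congrFun (h.bij.1 this) i
  · obtain ⟨x, hx⟩ := h.bij.2 (Pi.single (π i) (cj π w))
    have := congrFun hx (π i)
    rw [h.apply, Pi.single_eq_same] at this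
    exact ⟨x i, cj_bij.1 this⟩
  · rw [cp, ← bt_single, h.mul, h.single, h.single, usm, cj_smul]
    rcases perm_cases π with ⟨e, hp⟩ | ⟨e, hp⟩
    · rw [(hp i).1, (hp i).2, bt_single, Pi.single_eq_same]
      simp only [cj_even e]
    · rw [(hp i).1, (hp i).2, bt_comm, bt_single, Pi.single_eq_same]
      simp only [cj_odd e, star_mul, star_star]

theorem Sm.ne (h : Sm σ π l f) {x} (hx : ∀ i, x i ≠ 0) (j) : f x j ≠ 0 := by
  rw [← π.apply_symm_apply j, h.apply]
  exact fun e => h.cm.ne _ (hx _) (cj_bij.1 (e.trans (by rw [← zero_smul K 0, cj_smul]; simp)))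

theorem Sm.norm (h : Sm σ π l f) (x) (i) : σ (norm (x i)) = (sh l).1 (π i) * norm (f x (π i)) := by
  rw [h.apply, cj_norm, h.cm.norm i, sh_val, sh_perm]

theorem Sm.bil (h : Sm σ π l f) (x y) (i) :
    σ (bil (x i) (y i)) = (sh l).1 (π i) * bil (f x (π i)) (f y (π i)) := by
  rw [h.apply, h.apply, cj_bil, h.cm.bil i, sh_val, sh_perm]

theorem Sm.pr_even (h : Sm σ π l f) (e : Perm.sign π = 1) (x y) : f (pr x y) = l • pr (f x) (f y) :=
  ext_perm π fun i => by rw [usm, h.eq_as, h.cm.pr_even e]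

theorem Sm.pr_odd (h : Sm σ π l f) (e : Perm.sign π = -1) (x y) : f (pr x y) = l • pr (f y) (f x) :=
  ext_perm π fun i => by rw [usm, h.eq_as, h.cm.pr_odd e]

theorem Sm.pr_self (h : Sm σ π l f) (x) : f (pr x x) = l • pr (f x) (f x) := by
  rcases perm_cases π with ⟨e, -⟩ | ⟨e, -⟩
  exacts [h.pr_even e x x, h.pr_odd e x x]

theorem Sm.comp (hg : Sm σ π l g) (hf : Sm τ ρ l' f) :
    Sm (σ * τ) (π * ρ) (au σ π l' * l) fun x => g (f x) :=
  ⟨fun x y => by rw [hf.add, hg.add], fun u x => by rw [hf.smul, hg.smul, ac_mul],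
    hg.bij.comp hf.bij, fun x y => by rw [hf.mul, hg.usmul, hg.mul, mul_smul]⟩

theorem Sm.scale (h : Sm σ π l f) (u : (RR K)ˣ) : Sm σ π (u * l * (sh u)⁻¹) fun x => u • f x :=
  ⟨fun x y => by rw [h.add, smul_add], fun v x => by rw [h.smul, smul_comm],
    (MulAction.bijective u).comp h.bij, fun x y => by
      rw [h.mul, bt_smul, smul_smul, smul_smul, inv_mul_cancel_right]⟩

theorem Sm.congr (h : Sm σ π l f) {σ' π' l'} (e1 : σ' = σ) (e2 : π' = π) (e3 : l' = l) :
    Sm σ' π' l' f := by subst e1 e2 e3; exact h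

theorem sm_id : Sm (1 : K ≃ₐ[k] K) 1 1 fun x : WW a b c => x :=
  ⟨fun _ _ => rfl, fun _ _ => rfl, bijective_id, fun _ _ => (one_smul _ _).symm⟩

/-- scalars are determined by one point -/
theorem usm_inj {x : WW a b c} (hx : ∀ i, x i ≠ 0) {u v : (RR K)ˣ} (h : u • x = v • x) : u = v :=
  Units.ext (funext fun i => smul_left_injective K (hx i) (congrFun h i))

theorem exδ [IsAlgClosed K] (ε : RR K) (β : K) (hβ : β ≠ 0) (h : β ^ 2 = ε 0 * ε 1 * ε 2) :
    ∃ δ : (RR K)ˣ, (∀ i, δ.1 i ^ 2 = ε i) ∧ δ.1 0 * δ.1 1 * δ.1 2 = β := by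
  obtain ⟨r, hr⟩ := IsAlgClosed.exists_eq_mul_self (ε 0)
  obtain ⟨s, hs⟩ := IsAlgClosed.exists_eq_mul_self (ε 1)
  have h0 := pow_ne_zero 2 hβ
  rw [h, hr, hs] at h0
  have r0 : r ≠ 0 := fun e => h0 (by simp [e])
  have s0 : s ≠ 0 := fun e => h0 (by simp [e])
  refine ⟨mku ![r, s, β / (r * s)] fun i => ?_, fun i => ?_, ?_⟩
  · fin_cases i <;> simp [r0, s0, hβ]
  · fin_cases i
    · exact (sq r).trans hr.symm
    · exact (sq s).trans hs.symm
    · show (β / (r * s)) ^ 2 = ε 2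
      rw [div_pow, h, hr, hs]; field_simp
  · show r * s * (β / (r * s)) = β
    field_simp

theorem scale_one {u l : (RR K)ˣ} (h1 : ∀ i, u.1 i ^ 2 = (sh l).1 i)
    (h2 : u.1 0 * u.1 1 * u.1 2 = l.1 0 * l.1 1 * l.1 2) : u * l * (sh u)⁻¹ = 1 := by
  rw [mul_inv_eq_one]
  refine Units.ext (funext fun i => mul_left_cancel₀ (une u i) ?_)
  rw [← prod3 u.1 i, ← prod3 l.1 i] at h2
  have := h1 i
  rw [sh_val] at this
  show u.1 i * (u.1 i * l.1 i) = u.1 i * (u.1 (i + 1) * u.1 (i + 2))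
  linear_combination l.1 i * this - h2

theorem exn [IsAlgClosed K] (l : (RR K)ˣ) : ∃ u : (RR K)ˣ, u * l * (sh u)⁻¹ = 1 := by
  obtain ⟨u, h1, h2⟩ := exδ (sh l).1 (l.1 0 * l.1 1 * l.1 2)
    (mul_ne_zero (mul_ne_zero (une l _) (une l _)) (une l _)) (by simp [sh_val]; ring)
  exact ⟨u, scale_one h1 h2⟩

theorem Sm.exact [IsAlgClosed K] (h : Sm σ π l f) : ∃ u : (RR K)ˣ, Sm σ π 1 fun x => u • f x :=
  (exn l).imp fun u hu => (h.scale u).congr rfl rfl hu.symm

end sm

end Vale.Agent.P011LH
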