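import Vale.Agent.P011LH.Gq
import Vale.Agent.P011LC.Gen

/-!
P011 (helper1): reduced cyclic compositions come from octonion algebras.
-/

set_option linter.all false

namespace Vale.Agent.P011LH

open Vale.Agent.P011.D4 Vale.Agent.P011.D4.Oct Vale.Agent.P011.MPQ Vale.Agent.P011LD
open Equiv Function Vale.Agent.P011L

variable {k K : Type} [Field k] [Field K] [Algebra k K] {a b c a' b' c' a'' b'' c'' : Kˣ}
  {σ τ : K ≃ₐ[k] K} [NeZero (2 : K)]

theorem rel_cm {t1 t2 t3 : P011LC.OE a b c} (h : P011LC.Rel t1 t2 t3) :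
    Cm (1 : K ≃ₐ[k] K) 1 ![t3, t1, t2] := by
  refine ⟨fun i => ?_, fun i => ?_, fun i => ?_, fun i v w => ?_⟩ <;> fin_cases i
  exacts [t3.map_add, t1.map_add, t2.map_add, t3.map_smul, t1.map_smul, t2.map_smul, t3.bijective,
    t1.bijective, t2.bijective, (h.m3 v w).trans (one_smul K _).symm,
    (h.m1 v w).trans (one_smul K _).symm, (h.m2 v w).trans (one_smul K _).symm]

omit [NeZero (2 : K)] in
theorem as_one (g : Fin 3 → Oct a b c → Oct a' b' c') (x : WW a b c) (i) : as 1 g x i = g i (x i) :=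
  cj_one _

theorem pure_perp (w : Oct a b c) : ∃ u : Oct a b c, bil u 1 = 0 ∧ bil u w = 0 ∧ norm u ≠ 0 := by
  have ha := a.ne_zero
  have hb := b.ne_zero
  have h2 : (2 : K) ≠ 0 := NeZero.ne 2
  by_cases h0 : w.fst.imI = 0
  · exact ⟨gi, by simp [bil_eq, gi], by simp [bil_eq, gi, h0], by simp [Oct.norm, nrd, gi, ha]⟩
  by_contra hc
  push Not at hc
  have e1 := hc ⟨⟨0, b * w.fst.imJ, -(a * w.fst.imI), 0⟩, 0⟩ (by simp [bil_eq])
    (by simp only [bil_eq]; simp [mul_comm, mul_left_comm])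
  have e2 := hc ⟨⟨0, b * w.fst.imK, 0, w.fst.imI⟩, 0⟩ (by simp [bil_eq]) (by simp only [bil_eq]; simp [mul_comm, mul_left_comm])
  have e3 := hc ⟨⟨0, 0, a * w.fst.imK, w.fst.imJ⟩, 0⟩ (by simp [bil_eq]) (by simp only [bil_eq]; simp [mul_comm, mul_left_comm])
  simp only [Oct.norm, nrd, QuaternionAlgebra.re_zero, QuaternionAlgebra.imI_zero,
    QuaternionAlgebra.imJ_zero, QuaternionAlgebra.imK_zero] at e1 e2 e3
  have : (2 : K) * a ^ 2 * b * w.fst.imI ^ 2 = 0 := by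
    linear_combination (a : K) * e2 - e1 - (b : K) * e3
  simp [h2, ha, hb, h0] at this

theorem exA {u : Oct a b c} (hu : norm u = 1) : ∃ f : WW a b c → WW a b c,
    Sm (1 : K ≃ₐ[k] K) 1 1 f ∧ ∀ x, f x 1 = u * x 1 ∧ f x 2 = x 2 * u :=
  ⟨_, (rel_cm (P011LC.rel_u _ hu)).sm fun _ => rfl, fun _ => ⟨as_one _ _ _, as_one _ _ _⟩⟩

theorem exB {u : Oct a b c} (hu : norm u = 1) : ∃ f : WW a b c → WW a b c,
    Sm (1 : K ≃ₐ[k] K) 1 1 f ∧ ∀ x, f x 1 = star u * x 1 * star u ∧ f x 2 = u * x 2 :=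
  ⟨_, (rel_cm (P011LC.rel_u _ hu).cyc.cyc).sm fun _ => rfl, fun _ => ⟨as_one _ _ _, as_one _ _ _⟩⟩

/-- a unit element can be moved to the standard one -/
theorem move [IsAlgClosed K] {ε : WW a b c} (h1 : ∀ i, norm (ε i) = 1) (h2 : pr ε ε = ε) :
    ∃ ψ : WW a b c → WW a b c, Sm (1 : K ≃ₐ[k] K) 1 1 ψ ∧ ψ ε = 1 := by
  have n1 := P011LC.norm_star_one (h1 1)
  obtain ⟨g1, s1, t1⟩ := exA (k := k) n1
  obtain ⟨v, v1, v2, v3⟩ := pure_perp (star (ε 2 * star (ε 1)))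
  obtain ⟨r, hr⟩ := IsAlgClosed.exists_eq_mul_self (norm v)⁻¹
  have nu : norm (r • v) = 1 := by rw [Oct.norm_smul, sq, ← hr, inv_mul_cancel₀ v3]
  have pu : bil (r • v) 1 = 0 := by rw [bil_smul_left, v1, mul_zero]
  have pw : bil (r • v * (ε 2 * star (ε 1))) 1 = 0 := by
    rw [bil_mul_left', one_mul, bil_smul_left, v2, mul_zero]
  have nw : norm (r • v * (ε 2 * star (ε 1))) = 1 := by
    rw [Oct.norm_mul, Oct.norm_mul, Oct.norm_star, nu, h1, h1, one_mul, one_mul]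
  generalize r • v = u at nu pu pw nw
  obtain ⟨g2, s2, t2⟩ := exB (k := k) nu
  obtain ⟨g3, s3, t3⟩ := exB (k := k) (P011LC.norm_star_one nw)
  have s := (s3.comp (s2.comp s1)).congr (σ' := 1) (π' := 1) (l' := 1) rfl rfl (by simp)
  refine ⟨_, s, ?_⟩
  have e := s.pr_self ε
  rw [h2, one_smul] at e
  have f1 : star (u * (ε 2 * star (ε 1))) * (u * (ε 2 * star (ε 1))) = 1 := by
    rw [star_mul_self, nw, one_smul]
  have f2 : star (star (u * (ε 2 * star (ε 1)))) * (star u * (star (ε 1) * ε 1) * star u) *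
      star (star (u * (ε 2 * star (ε 1)))) = 1 := by
    rw [star_mul_self, h1, one_smul, mul_one, star_neg_of_pure pu, neg_mul_neg, mul_self_of_pure pu,
      nu, star_star, neg_one_smul, mul_neg, mul_one, neg_mul, mul_self_of_pure pw, nw, neg_one_smul,
      neg_neg]
  beta_reduce at e ⊢
  generalize hz : g3 (g2 (g1 ε)) = z at e ⊢
  have z1 : z 1 = 1 := by rw [← hz, (t3 _).1, (t2 _).1, (t1 _).1, f2]
  have z2 : z 2 = 1 := by rw [← hz, (t3 _).2, (t2 _).2, (t1 _).2, f1]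
  have z0 : z 0 = star (z 1 * z 2) := congrFun e 0
  rw [z1, z2, one_mul, star_one] at z0
  funext i
  fin_cases i
  exacts [z0, z1, z2]

omit [NeZero (2 : K)] in
/-- similitudes which fix the unit -/
theorem Sm.unit {π l} {f : WW a b c → WW a' b' c'} (h : Sm σ π l f) (h1 : f 1 = 1) :
    l = 1 ∧ ∃ α, Hm σ α ∧ f = as π fun _ => α := by
  have p1 : ∀ {a b c : Kˣ}, pr (1 : WW a b c) 1 = 1 := funext fun i => by simp [pr]
  have e := h.pr_self 1
  rw [p1, h1, p1] at e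
  have l1 : l = 1 := usm_inj (fun _ => oct_ne) (e.symm.trans (one_smul _ _).symm)
  subst l1
  have g := h.cm
  have g1 : ∀ i, cp π f i 1 = 1 := fun i => by
    have := h.apply 1 i
    rw [h1] at this
    exact cj_bij.1 (this.symm.trans cj_unit.symm)
  have g2 : ∀ i w, cp π f i (star w) = star (cp π f (i + 2) w) := fun i w => by
    simpa [g1] using g.mul i 1 w
  have g3 : ∀ i w, cp π f i (star w) = star (cp π f (i + 1) w) := fun i w => by
    simpa [g1] using g.mul i w 1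
  have g4 : ∀ i, cp π f (i + 1) = cp π f (i + 2) := fun i =>
    funext fun w => star_injective ((g3 i w).symm.trans (g2 i w))
  have g5 : ∀ i, cp π f i = cp π f 0 := fun i => by
    fin_cases i
    exacts [rfl, (g4 2).symm, g4 1]
  have g6 : ∀ w, cp π f 0 (star w) = star (cp π f 0 w) := fun w => by rw [g2, g5]
  refine ⟨rfl, cp π f 0, ⟨g.add 0, g.smul 0, g.bij 0, fun v w => star_injective ?_, g6⟩, ?_⟩
  · simpa [← g6, g5 1, g5 2] using g.mul 0 v w
  · rw [← funext g5]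
    exact h.eq_as

variable [Algebra.IsAlgebraic k K] {Γ : Subgroup (K ≃ₐ[k] K)}

section

variable {α : (K ≃ₐ[k] K) → Oct a b c → Oct a b c} (hα : Sl Γ α) (hm : ∀ σ ∈ Γ, Hm σ (α σ))
include hα hm

theorem orth {ι : Type} [Fintype ι] (hι : Fintype.card ι < 8) (u : ι → Oct a b c)
    (hu : ∀ i, norm (u i) ≠ 0) (ho : ∀ i j, i ≠ j → bil (u i) (u j) = 0)
    (hf : ∀ i, u i ∈ Fx Γ α) : ∃ w ∈ Fx Γ α, norm w ≠ 0 ∧ ∀ i, bil w (u i) = 0 := by
  have h2 : (2 : K) ≠ 0 := NeZero.ne 2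
  let f : Oct a b c →ₗ[K] (ι → K) :=
    { toFun := fun x m => bil x (u m)
      map_add' := fun x y => funext fun m => bil_add_left x y (u m)
      map_smul' := fun t x => funext fun m => bil_smul_left t x (u m) }
  have mk : ∀ x, x ∈ LinearMap.ker f ↔ ∀ m, bil x (u m) = 0 := fun x => funext_iff
  obtain ⟨x, hx, h0⟩ := Submodule.exists_mem_ne_zero_of_ne_bot
    (LinearMap.ker_ne_bot_of_finrank_lt (f := f) (by rwa [finrank_oct, Module.finrank_pi]))
  have sp := @Sl.mem_span _ _ _ _ _ _ _ _ _ _ _ hα (LinearMap.ker f) fun σ s w hw =>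
    (mk _).2 fun m => by rw [← hf m σ s, (hm σ s).bil, (mk _).1 hw, map_zero]
  by_contra hc
  have k0 : ∀ w ∈ Fx Γ α ∩ LinearMap.ker f, norm w = 0 := fun w hw => by
    by_contra e
    exact hc ⟨w, hw.1, e, (mk _).1 hw.2⟩
  have k1 : ∀ v ∈ LinearMap.ker f, ∀ w ∈ LinearMap.ker f, bil v w = 0 := fun v hv w hw => by
    refine Submodule.span_induction₂ (p := fun v w _ _ => bil v w = 0) (fun v w hv hw => ?_)
      (fun _ _ => bil_zero_left _) (fun _ _ => bil_zero_right _) (fun _ _ _ _ _ _ e1 e2 => ?_)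
      (fun _ _ _ _ _ _ e1 e2 => ?_) (fun _ _ _ _ _ e => ?_) (fun _ _ _ _ _ e => ?_) (sp hv) (sp hw)
    · rw [Oct.bil, k0 v hv, k0 w hw, k0 _ ⟨hα.add_mem hv.1 hw.1, add_mem hv.2 hw.2⟩]; ring
    · rw [bil_add_left, e1, e2, add_zero]
    · rw [bil_add_right, e1, e2, add_zero]
    · rw [bil_smul_left, e, mul_zero]
    · rw [bil_smul_right, e, mul_zero]
  refine h0 (eq_zero_of_bil fun z => ?_)
  have k2 : ∀ (t : ι → K) y, bil (∑ i, t i • u i) y = ∑ i, t i * bil (u i) y := fun t y => by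
    classical
    refine Finset.induction_on Finset.univ (by simp) fun i s hi e => ?_
    rw [Finset.sum_insert hi, Finset.sum_insert hi, bil_add_left, bil_smul_left, e]
  have k3 := k1 (z - ∑ i, (bil z (u i) / (2 * norm (u i))) • u i) ((mk _).2 fun m => by
    rw [bil_sub_left, k2, Finset.sum_eq_single m (fun j _ e => by rw [ho j m e, mul_zero])
      (fun e => absurd (Finset.mem_univ _) e), bil_self, div_mul_cancel₀ _ (mul_ne_zero h2 (hu m)),
      sub_self]) x hx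
  rw [bil_sub_left, k2, Finset.sum_eq_zero fun i _ => by rw [bil_comm (u i), (mk _).1 hx, mul_zero],
    sub_zero, bil_comm] at k3
  exact k3

theorem fx_norm {v} (hv : v ∈ Fx Γ α) {σ} (s : σ ∈ Γ) : σ (norm v) = norm v := by
  rw [← (hm σ s).norm, hv σ s]

theorem trip {i : Oct a b c} (hi : i ∈ Fx Γ α) (i1 : bil i 1 = 0) (ia : norm i = -a') :
    ∃ (b' c' : Kˣ) (β : Oct a' b' c' → Oct a b c), Hm (1 : K ≃ₐ[k] K) β ∧ β gi = i ∧
      ∀ σ ∈ Γ, σ a' = a' ∧ σ b' = b' ∧ σ c' = c' ∧ ∀ v, α σ (β v) = β (cm σ v) := by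
  have h1 : (1 : Oct a b c) ∈ Fx Γ α := fun σ s => (hm σ s).one
  have i0 : norm i ≠ 0 := by rw [ia]; exact neg_ne_zero.2 a'.ne_zero
  obtain ⟨j, hj, j0, jo⟩ := orth hα hm (ι := Fin 2) (by simp) ![1, i]
    (fun m => by fin_cases m <;> simp [i0])
    (fun m n e => by fin_cases m <;> fin_cases n <;> simp [i1, bil_comm 1] at e ⊢)
    (fun m => by fin_cases m <;> assumption)
  have B : Basic i j a' (Units.mk0 (-norm j) (neg_ne_zero.2 j0)) :=
    ⟨i1, jo 0, (bil_comm _ _).trans (jo 1), ia, by simp⟩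
  have hij : i * j ∈ Fx Γ α := fun σ s => by rw [(hm σ s).mul, hi σ s, hj σ s]
  have o1 : bil i (i * j) = 0 := by
    have := bil_mul_mul_left i 1 j
    rwa [mul_one, bil_comm 1, B.j_one, mul_zero] at this
  have o2 : bil j (i * j) = 0 := by
    have := bil_mul_mul_right j 1 i
    rwa [one_mul, bil_comm 1, i1, mul_zero] at this
  obtain ⟨l, hl, l0, lo⟩ := orth hα hm (ι := Fin 4) (by simp) ![1, i, j, i * j]
    (fun m => by fin_cases m <;> simp [i0, j0, Oct.norm_mul])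
    (fun m n e => by
      fin_cases m <;> fin_cases n <;>
        simp [i1, bil_comm 1, B.j_one, B.i_j, B.ij_one, o1, o2, bil_comm j i, bil_comm (i * j) i,
          bil_comm (i * j) j] at e ⊢)
    (fun m => by fin_cases m <;> assumption)
  have T : Triple i j l a' _ (Units.mk0 (-norm l) (neg_ne_zero.2 l0)) :=
    ⟨B, ⟨lo 0, lo 1, lo 2, lo 3⟩, by simp⟩
  obtain ⟨Φ, p1, p2, p3, -⟩ := exists_emb T.trip
  refine ⟨_, _, Φ, ⟨Φ.map_add, Φ.map_smul, Φ.bijective, p2, p3⟩, by simp [p1, emb, qemb, gi],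
    fun σ s => ⟨?_, ?_, ?_, fun v => ?_⟩⟩
  · rw [← neg_neg a'.1, ← ia, map_neg, fx_norm hα hm hi s]
  · rw [Units.val_mk0, map_neg, fx_norm hα hm hj s]
  · rw [Units.val_mk0, map_neg, fx_norm hα hm hl s]
  · simp only [p1, emb, qemb, (hm σ s).add, (hm σ s).smul, (hm σ s).mul, (hm σ s).one, hi σ s,
      hj σ s, hl σ s, cm, cq]

end

variable {π : (K ≃ₐ[k] K) →* Perm (Fin 3)} {P : (K ≃ₐ[k] K) → WW a b c → WW a b c}

omit [NeZero (2 : K)] [Algebra.IsAlgebraic k K] in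
/-- actions which fix the unit -/
theorem unit_act (hP : Sl Γ P) (hs : ∀ σ ∈ Γ, Sim σ (π σ) (P σ)) (h1 : ∀ σ ∈ Γ, P σ 1 = 1) :
    ∃ α : (K ≃ₐ[k] K) → Oct a b c → Oct a b c, Sl Γ α ∧
      ∀ σ ∈ Γ, Hm σ (α σ) ∧ P σ = dg (π σ) (α σ) := by
  have e : ∀ σ, ∃ α, σ ∈ Γ → Hm σ α ∧ P σ = dg (π σ) α := fun σ => by
    by_cases s : σ ∈ Γ
    · exact (hs σ s).elim fun l hl => (hl.unit (h1 σ s)).2.imp fun α h _ => h
    · exact ⟨id, fun h => absurd h s⟩
  choose α hα using e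
  have ec : ∀ σ ∈ Γ, ∀ v, P σ (fun _ => v) = fun _ => cj (π σ) (α σ v) := fun σ s v => by
    rw [(hα σ s).2]; rfl
  refine ⟨α, ⟨fun σ s => (hα σ s).1.add, fun σ s => (hα σ s).1.smul, fun σ s τ t v => ?_,
    fun v => ?_⟩, hα⟩
  · have := congrFun (hP.mul σ s τ t fun _ => v) 0
    rw [ec _ (mul_mem s t), ec τ t, ec σ s, map_mul, cj_mul, (hα σ s).1.cj] at this
    exact cj_bij.1 (cj_bij.1 this)
  · refine (Op.and (hP.cont fun _ => v) (Op.and (hP.cont (Pi.single 0 1))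
      (hP.cont (Pi.single 1 1)))).imp fun σ s e => ?_
    have k : ∀ i, P σ (Pi.single i 1) = Pi.single i 1 → π σ i = i := fun i h => by
      by_contra n
      have := congrFun h (π σ i)
      rw [(hα σ s).2, dg_eq, as_perm, Pi.single_eq_same, Pi.single_eq_of_ne n, (hα σ s).1.one,
        cj_unit] at this
      exact oct_ne this
    have p : ∀ ρ : Perm (Fin 3), ρ 0 = 0 → ρ 1 = 1 → ρ = 1 := by decide
    have := congrFun e.1 0
    rwa [ec σ s, p _ (k 0 e.2.1) (k 1 e.2.2), cj_one] at this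

omit [NeZero (2 : K)] [Algebra.IsAlgebraic k K] in
theorem dg_as {α : Oct a b c → Oct a b c} {β : Oct a' b' c' → Oct a b c}
    (hβ : Hm (1 : K ≃ₐ[k] K) β) (h : ∀ v, α (β v) = β (cm σ v)) (x : WW a' b' c') :
    dg (π σ) α (as 1 (fun _ => β) x) = as 1 (fun _ => β) (std π σ x) :=
  ext_perm (π σ) fun i => by rw [dg_eq, as_perm, as_one, as_one, std_perm, h, hβ.cj]

omit [NeZero (2 : K)] [Algebra.IsAlgebraic k K] in
theorem sl_tr (hP : Sl Γ P) (ψ : WW a' b' c' ≃ₗ[RR K] WW a b c) :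
    Sl Γ fun σ x => ψ.symm (P σ (ψ x)) :=
  ⟨fun σ s v w => by rw [map_add, hP.add σ s, map_add],
    fun σ s t v => by rw [le_ksm, hP.smul σ s, le_ksm],
    fun σ s τ t v => by rw [ψ.apply_symm_apply, hP.mul σ s τ t],
    fun v => Op.imp (hP.cont (ψ v)) fun σ _ e => by rw [e, ψ.symm_apply_apply]⟩

/-- **Reduced cyclic compositions.** -/
theorem cyc [IsAlgClosed K] (hP : Sl Γ P) (hs : ∀ σ ∈ Γ, Sm σ (π σ) 1 (P σ)) {e : RR K}
    {x : WW a b c} (hx : ∀ σ ∈ Γ, P σ x = x) (he : ∀ i, e i ≠ 0 ∧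
      norm (x i) = e (i + 1) * e (i + 2) ∧ star (x (i + 1) * x (i + 2)) = e i • x i) :
    ∃ (a' b' c' : Kˣ) (ψ : WW a' b' c' → WW a b c) (l : (RR K)ˣ), Sm (1 : K ≃ₐ[k] K) 1 l ψ ∧
      (∀ i, l.1 i * e i = 1) ∧ ψ 1 = x ∧
      ∀ σ ∈ Γ, σ a' = a' ∧ σ b' = b' ∧ σ c' = c' ∧ ∀ v, P σ (ψ v) = ψ (std π σ v) := by
  obtain ⟨δ, d1, d2⟩ := exδ (fun i => e (i + 1) * e (i + 2)) (e 0 * e 1 * e 2)
    (mul_ne_zero (mul_ne_zero (he 0).1 (he 1).1) (he 2).1) (by simp; ring)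
  have d3 : ∀ i, δ.1 i * e i = (sh δ).1 i := fun i => mul_left_cancel₀ (une δ i) (by
    rw [sh_val, ← mul_assoc, ← mul_assoc, prod3, d2, ← sq, d1, ← prod3 e i]; ring)
  obtain ⟨φ, f1, f2⟩ := move (k := k) (ε := δ⁻¹ • x) (fun i => by
      rw [usm, Oct.norm_smul, uinv, inv_pow, d1, (he i).2.1,
        inv_mul_cancel₀ (mul_ne_zero (he _).1 (he _).1)])
    (funext fun i => by
      rw [usm', pr_smul, rsm, rsm, pr, (he i).2.2, smul_smul, uinv, uinv, uinv, ← mul_inv, ← sh_val,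
        ← d3, mul_inv, inv_mul_cancel_right₀ (he i).1])
  have g1 := f1.inv.scale δ
  have g2 : g1.le 1 = x := by
    rw [g1.le_apply, ← f2, ← f1.le_apply, f1.le.symm_apply_apply, smul_inv_smul]
  obtain ⟨α, a1, a2⟩ := unit_act (π := π) (sl_tr hP g1.le)
    (fun σ s => Sim.comp (σ := 1) (π := 1) ⟨_, g1.inv⟩
      (Sim.comp (τ := 1) (ρ := 1) ⟨_, hs σ s⟩ ⟨_, g1⟩))
    fun σ s => by rw [g2, hx σ s, ← g2, g1.le.symm_apply_apply]
  obtain ⟨i, i1, i2, i3⟩ := orth a1 (fun σ s => (a2 σ s).1) (ι := Fin 1) (by simp) ![1]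
    (fun m => by simp) (fun m n e => absurd (Subsingleton.elim _ _) e)
    fun m σ s => by fin_cases m; exact (a2 σ s).1.one
  obtain ⟨b', c', β, b1, -, b2⟩ := trip a1 (fun σ s => (a2 σ s).1)
    (a' := Units.mk0 (-norm i) (neg_ne_zero.2 i2)) i1 (i3 0) (by simp)
  refine ⟨_, b', c', _, _, g1.comp (b1.sm 1), fun i => ?_, ?_, fun σ s =>
    ⟨(b2 σ s).1, (b2 σ s).2.1, (b2 σ s).2.2.1, fun v => ?_⟩⟩
  · rw [map_one, one_mul, inv_one, mul_one, Units.val_mul, Pi.mul_apply, uinv, mul_right_comm, d3,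
      mul_inv_cancel₀ (une _ _)]
  · rw [← g2]
    exact congrArg g1.le (funext fun i => (as_one _ _ _).trans b1.one)
  · have := congrFun (a2 σ s).2 (as 1 (fun _ => β) v)
    rw [dg_as b1 (b2 σ s).2.2.2, LinearEquiv.symm_apply_eq] at this
    exact this

end Vale.Agent.P011LH
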