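import Vale.Agent.P011LH.Iso

/-!
P011 (helper1): the standard data, the similitudes given by quaternions, the model.
-/

set_option linter.all false

namespace Vale.Agent.P011LH

open Vale.Agent.P011.D4 Vale.Agent.P011.D4.Oct Vale.Agent.P011.MPQ Vale.Agent.P011LD
open Equiv Function Vale.Agent.P011L

variable {k K : Type} [Field k] [Field K] [Algebra k K] {a b c a' b' c' a'' b'' c'' : Kˣ}
  {σ τ : K ≃ₐ[k] K}

/-- semilinear isomorphisms of octonion algebras -/
structure Hm (σ : K ≃ₐ[k] K) (α : Oct a b c → Oct a' b' c') : Prop where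
  add : ∀ v w, α (v + w) = α v + α w
  smul : ∀ (t : K) v, α (t • v) = σ t • α v
  bij : Bijective α
  mul : ∀ v w, α (v * w) = α v * α w
  star : ∀ v, α (star v) = star (α v)

theorem Hm.cm {α : Oct a b c → Oct a' b' c'} (h : Hm σ α) : Cm σ 1 fun _ => α :=
  ⟨fun _ => h.add, fun _ => h.smul, fun _ => h.bij, fun _ v w => by
    rw [h.star, h.mul, Pi.one_apply, one_smul]⟩

theorem Hm.sm {α : Oct a b c → Oct a' b' c'} (h : Hm σ α) (π : Perm (Fin 3)) :
    Sm σ π 1 (as π fun _ => α) := h.cm.sm fun _ => rfl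

theorem Hm.norm {α : Oct a b c → Oct a' b' c'} (h : Hm σ α) (v) : norm (α v) = σ (norm v) := by
  simpa using (h.cm.norm 0 v).symm

theorem Hm.bil {α : Oct a b c → Oct a' b' c'} (h : Hm σ α) (v w) : bil (α v) (α w) = σ (bil v w) := by
  simpa using (h.cm.bil 0 v w).symm

theorem Hm.one {α : Oct a b c → Oct a' b' c'} (h : Hm σ α) : α 1 = 1 := by
  obtain ⟨x, hx⟩ := h.bij.2 1
  rw [← mul_one (α 1), ← hx, ← h.mul, one_mul]

theorem Hm.cj {α : Oct a b c → Oct a' b' c'} (h : Hm σ α) (π v) : α (cj π v) = cj π (α v) := by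
  unfold P011LH.cj; split_ifs; exacts [rfl, h.star v]

theorem dg_eq (π : Perm (Fin 3)) (α : Oct a b c → Oct a b c) : dg π α = as π fun _ => α := rfl

theorem cq_add (x y : Qt a b) : cq σ (x + y) = cq σ x + cq σ y := by ext <;> simp [cq]

theorem cq_smul (t : K) (x : Qt a b) : cq σ (t • x) = σ t • cq σ x := by ext <;> simp [cq]

theorem cq_neg (x : Qt a b) : cq σ (-x) = -cq σ x := by ext <;> simp [cq]

theorem cq_star (x : Qt a b) : cq σ (star x) = star (cq σ x) := by ext <;> simp [cq]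

theorem cq_mul (ha : σ a = a) (hb : σ b = b) (x y : Qt a b) : cq σ (x * y) = cq σ x * cq σ y := by
  ext <;> simp [cq, ha, hb]

theorem cq_nrd (ha : σ a = a) (hb : σ b = b) (x : Qt a b) : nrd (cq σ x) = σ (nrd x) := by
  simp [cq, nrd, ha, hb]

theorem cm_mul (x : Oct a b c) : cm (σ * τ) x = cm σ (cm τ x) := rfl

theorem cm_one (x : Oct a b c) : cm (1 : K ≃ₐ[k] K) x = x := rfl

theorem cm_star (x : Oct a b c) : cm σ (star x) = star (cm σ x) :=
  Oct.ext (cq_star _) (cq_neg _)

theorem cm_cj (π) (x : Oct a b c) : cm σ (cj π x) = cj π (cm σ x) := by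
  unfold cj; split_ifs; exacts [rfl, cm_star x]

theorem cm_bij : Bijective (cm σ : Oct a b c → Oct a b c) :=
  bijective_iff_has_inverse.2 ⟨cm σ⁻¹, fun x => by rw [← cm_mul, inv_mul_cancel, cm_one],
    fun x => by rw [← cm_mul, mul_inv_cancel, cm_one]⟩

theorem hm_cm (ha : σ a = a) (hb : σ b = b) (hc : σ c = c) : Hm σ (cm σ : Oct a b c → Oct a b c) :=
  ⟨fun _ _ => Oct.ext (cq_add _ _) (cq_add _ _), fun _ _ => Oct.ext (cq_smul _ _) (cq_smul _ _),
    cm_bij, fun v w => Oct.ext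
      (by simp only [cm, fst_mul, cq_add, cq_smul, cq_mul ha hb, cq_star, hc])
      (by simp only [cm, snd_mul, cq_add, cq_mul ha hb, cq_star]), cm_star⟩

theorem op_cm (Γ : Subgroup (K ≃ₐ[k] K)) (x : Oct a b c) : Op Γ fun σ => cm σ x = x :=
  (Op.vec Γ ![x.fst.re, x.fst.imI, x.fst.imJ, x.fst.imK, x.snd.re, x.snd.imI, x.snd.imJ,
    x.snd.imK]).imp fun _ _ e => ext8 (congrFun e 0) (congrFun e 1) (congrFun e 2) (congrFun e 3)
      (congrFun e 4) (congrFun e 5) (congrFun e 6) (congrFun e 7)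

variable {π : (K ≃ₐ[k] K) →* Perm (Fin 3)}

theorem std_sm (ha : σ a = a) (hb : σ b = b) (hc : σ c = c) :
    Sm σ (π σ) 1 (std π σ : WW a b c → WW a b c) := (hm_cm ha hb hc).sm _

theorem std_perm (x : WW a b c) (i) : std π σ x (π σ i) = cj (π σ) (cm σ (x i)) :=
  as_perm (fun _ => cm σ) x i

theorem std_mul (x : WW a b c) : std π (σ * τ) x = std π σ (std π τ x) :=
  ext_perm (π (σ * τ)) fun i => by
    rw [std_perm, map_mul, Perm.mul_apply, std_perm, std_perm, cm_cj, cj_mul, cm_mul]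

theorem op_std {Γ : Subgroup (K ≃ₐ[k] K)} (h : Op Γ fun σ => π σ = 1) (x : WW a b c) :
    Op Γ fun σ => std π σ x = x :=
  (h.and (Op.all fun i => op_cm Γ (x i))).imp fun σ _ e => ext_perm (π σ) fun i => by
    rw [std_perm, e.2, e.1, cj_one]; rfl

theorem qmul_star (x : Qt a b) : x * star x = nrd x • (1 : Qt a b) := by
  ext <;> simp [nrd] <;> ring

theorem qstar_mul (x : Qt a b) : star x * x = nrd x • (1 : Qt a b) := by
  ext <;> simp [nrd] <;> ring

theorem qms (x y : Qt a b) : x * (star x * y) = nrd x • y := by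
  rw [← mul_assoc, qmul_star, smul_mul_assoc, one_mul]

theorem nrd_star (x : Qt a b) : nrd (star x) = nrd x := by simp [nrd]

theorem nrd_smul (t : K) (x : Qt a b) : nrd (t • x) = t ^ 2 * nrd x := by simp [nrd]; ring

theorem gq_gq {p r : Fin 3 → Qt a b} (s t : K) (x : WW a b c) :
    gq c'' p s (gq c' r t x) = gq c'' (fun i => r i * p i) (s * t) x := funext fun i => Oct.ext
  (by simp only [gq, star_mul, mul_assoc])
  (by simp only [gq, nrd_mul, smul_mul_assoc, smul_smul, mul_assoc]; congr 1; ring)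

theorem gq_scalar (u : (RR K)ˣ) (x : WW a b c) :
    gq c (fun i => u.1 i • 1) (u.1 0 * u.1 1 * u.1 2) x = sh u • x := funext fun i => Oct.ext
  (by simp only [gq, QuaternionAlgebra.star_smul, star_one, smul_mul_assoc, one_mul,
    mul_smul_comm, mul_one, smul_smul, usm, fst_smul, sh_val, mul_comm])
  (by
    have := une u i
    simp only [gq, mul_smul_comm, mul_one, smul_smul, usm, snd_smul, sh_val, nrd_smul, nrd_one,
      ← prod3 u.1 i]
    congr 1; field_simp)

/-- the components -/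
def gc (c' : Kˣ) (p : Fin 3 → Qt a b) (s : K) (i : Fin 3) (v : Oct a b c) : Oct a b c' :=
  ⟨star (p (i + 1)) * v.fst * p (i + 2), (s / nrd (p i)) • (v.snd * p i)⟩

theorem gq_as (p : Fin 3 → Qt a b) (s : K) : (gq c' p s : WW a b c → _) = as 1 (gc c' p s) :=
  funext fun _ => funext fun _ => (cj_one _).symm

theorem gc_inv {p : Fin 3 → Qt a b} {s : K} (hp : ∀ i, nrd (p i) ≠ 0) (hs : s ≠ 0) (i)
    (v : Oct a b c) : (nrd (p (i + 1)) * nrd (p (i + 2)))⁻¹ •
      gc c (fun i => star (p i)) (nrd (p 0) * nrd (p 1) * nrd (p 2) / s) i (gc c' p s i v) = v := by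
  have h0 := hp i
  have h1 := hp (i + 1)
  have h2 := hp (i + 2)
  refine Oct.ext ?_ ?_
  · simp only [gc, fst_smul, star_star, mul_assoc, qmul_star, qms, mul_smul_comm, mul_one, smul_smul,
      smul_mul_assoc]
    rw [show _ * _ = (1 : K) by field_simp, one_smul]
  · simp only [gc, snd_smul, mul_assoc, qmul_star, mul_smul_comm, mul_one, smul_smul,
      smul_mul_assoc, nrd_star]
    rw [← mul_assoc (nrd (p 0)), ← prod3 (fun i => nrd (p i)) i,
      show _ * _ = (1 : K) by field_simp, one_smul]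

theorem gc_cm {p : Fin 3 → Qt a b} {s : K} (hp : ∀ i, nrd (p i) ≠ 0)
    (hs : c' * s ^ 2 = c * (nrd (p 0) * nrd (p 1) * nrd (p 2))) :
    Cm (1 : K ≃ₐ[k] K) (fun i => (nrd (p i))⁻¹) (gc c' p s : _ → Oct a b c → _) := by
  have s0 : s ≠ 0 := fun e => mul_ne_zero c.ne_zero (mul_ne_zero (mul_ne_zero (hp 0) (hp 1)) (hp 2))
    (by rw [← hs, e]; ring)
  have ad : ∀ i (v w : Oct a b c), gc c' p s i (v + w) = gc c' p s i v + gc c' p s i w :=
    fun i v w => Oct.ext (by simp only [gc, fst_add, mul_add, add_mul])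
      (by simp only [gc, snd_add, add_mul, smul_add])
  have sm : ∀ i (t : K) (v : Oct a b c), gc c' p s i (t • v) = t • gc c' p s i v :=
    fun i t v => Oct.ext (by simp only [gc, fst_smul, mul_smul_comm, smul_mul_assoc])
      (by simp only [gc, snd_smul, smul_mul_assoc, smul_comm t])
  refine ⟨ad, sm, fun i => ?_, fun i v w => ?_⟩
  · have hi : Injective (gc c' p s i : Oct a b c → _) := fun v w e => by
      rw [← gc_inv (c' := c') hp s0 i v, e, gc_inv hp s0]
    exact ⟨hi, (LinearMap.injective_iff_surjective_of_finrank_eq_finrank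
      (f := (⟨⟨gc c' p s i, ad i⟩, sm i⟩ : Oct a b c →ₗ[K] Oct a b c'))
      (by rw [finrank_oct, finrank_oct])).1 hi⟩
  · have h0 := hp i
    have h1 := hp (i + 1)
    have h2 := hp (i + 2)
    rw [← prod3 (fun i => nrd (p i)) i] at hs
    refine Oct.ext ?_ ?_
    · simp only [gc, fst_smul, fst_star, snd_star, fst_mul, f11, f12, f21, f22]
      simp only [star_add, star_mul, star_star,
        QuaternionAlgebra.star_smul, mul_add, add_mul, mul_assoc, qms, mul_smul_comm,
        smul_mul_assoc, smul_smul, smul_add]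
      congr 2
      · rw [inv_mul_cancel₀ h0, one_smul]
      · field_simp
        linear_combination -hs
    · simp only [gc, snd_smul, snd_star, snd_mul, fst_star, f11, f12, f21, f22]
      simp only [star_add, star_mul, star_star, mul_add, add_mul, mul_assoc, qms, mul_smul_comm, smul_mul_assoc, smul_smul,
        smul_add, neg_mul, smul_neg]
      congr 3 <;> field_simp

theorem gq_sm {p : Fin 3 → Qt a b} {s : K} (hp : ∀ i, nrd (p i) ≠ 0)
    (hs : c' * s ^ 2 = c * (nrd (p 0) * nrd (p 1) * nrd (p 2))) :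
    Sm (1 : K ≃ₐ[k] K) 1 (mku (fun i => nrd (p i)) hp)⁻¹ (gq c' p s : WW a b c → _) := by
  rw [gq_as]
  exact (gc_cm hp hs).sm fun i => uinv _ _

theorem std_gq (ha : σ a = a) (hb : σ b = b) (p : Fin 3 → Qt a b) (s : K) (x : WW a b c) :
    std π σ (gq c' p s x) = gq c' (fun j => cq σ (p ((π σ).symm j))) (σ s) (std π σ x) :=
  ext_perm (π σ) fun i => by
    rw [std_perm, gq, gq, std_perm]
    rcases perm_cases (π σ) with ⟨e, h⟩ | ⟨e, h⟩
    · simp only [← (h i).1, ← (h i).2, symm_apply_apply, cj_even e, cm, cq_mul ha hb, cq_star,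
        cq_smul, cq_nrd ha hb, map_div₀]
    · simp only [← (h i).1, ← (h i).2, symm_apply_apply, cj_odd e]
      refine Oct.ext ?_ ?_
      · simp only [cm, fst_star, cq_mul ha hb, cq_star, star_mul, star_star, mul_assoc]
      · simp only [cm, snd_star, cq_mul ha hb, cq_smul, cq_nrd ha hb, map_div₀, neg_mul, smul_neg]

section et

variable [NeZero (2 : K)] {d : K}

theorem d_ne (hd : d ^ 2 = a) : d ≠ 0 := fun e => a.ne_zero (by rw [← hd, e]; ring)

theorem nrd_et (hd : d ^ 2 = a) (t : K) : nrd (et d t : Qt a b) = t := by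
  have h2 : (2 : K) ≠ 0 := NeZero.ne 2
  have := d_ne hd
  simp only [nrd, et, ← hd]
  field_simp
  ring

theorem et_mul (hd : d ^ 2 = a) (s t : K) : (et d s : Qt a b) * et d t = et d (s * t) := by
  have h2 : (2 : K) ≠ 0 := NeZero.ne 2
  have := d_ne hd
  ext <;> simp [et, ← hd] <;> field_simp <;> ring

theorem et_one : (et d 1 : Qt a b) = 1 := by
  have h2 : (2 : K) ≠ 0 := NeZero.ne 2
  ext <;> simp [et]

theorem star_et (t : K) : star (et d t : Qt a b) = et (-d) t := by
  ext <;> simp [et, div_neg]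

theorem star_et' (hd : d ^ 2 = a) {t : K} (ht : t ≠ 0) : star (et d t : Qt a b) = t • et d t⁻¹ := by
  have h2 : (2 : K) ≠ 0 := NeZero.ne 2
  have := d_ne hd
  ext <;> simp [et] <;> field_simp <;> ring

theorem cq_et (t : K) : cq σ (et d t : Qt a b) = et (σ d) (σ t) := by
  ext <;> simp [et, cq, map_ofNat]

variable {y : RR K}

theorem Md.y0 (h : Md π a b c d y) (i) : y i ≠ 0 := fun e => by
  have := h.nm
  rw [← prod3 y i, e, zero_mul, zero_mul] at this
  exact zero_ne_one this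

theorem Md.pm (h : Md π a b c d y) (σ : K ≃ₐ[k] K) : σ d = d ∨ σ d = -d :=
  sq_eq_sq_iff_eq_or_eq_neg.1 (by rw [← map_pow, h.sq, h.fa])

theorem neg_ne (hd : d ^ 2 = a) : -d ≠ d := fun e =>
  d_ne hd ((mul_eq_zero.1 (by linear_combination -e : (2 : K) * d = 0)).resolve_left (NeZero.ne 2))

/-- the twist -/
def tw (c : Kˣ) (d : K) (y : RR K) : WW a b c → WW a b c := gq c (fun i => et d (y i)) 1

theorem tw_sim (hd : d ^ 2 = a) (hy : y 0 * y 1 * y 2 = 1) :
    Sim (1 : K ≃ₐ[k] K) 1 (tw c d y : WW a b c → _) :=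
  ⟨_, gq_sm (fun i e => by
      rw [nrd_et hd] at e
      rw [← prod3 y i, e, zero_mul, zero_mul] at hy
      exact zero_ne_one hy) (by simp only [nrd_et hd, hy]; ring)⟩

theorem tw_tw (hd : d ^ 2 = a) (hy : y 0 * y 1 * y 2 = 1) :
    Pr (fun x : WW a b c => tw c d y (tw c (-d) y x)) fun x => x := by
  have y0 : ∀ i, y i ≠ 0 := fun i e => by
    rw [← prod3 y i, e, zero_mul, zero_mul] at hy
    exact zero_ne_one hy
  refine ⟨sh (mku y y0), fun x => ?_⟩
  beta_reduce
  rw [← gq_scalar, tw, tw, gq_gq]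
  simp only [← star_et, qstar_mul, nrd_et hd, mku, hy, mul_one]

theorem std_tw (h : Md π a b c d y) (x : WW a b c) :
    std π σ (tw c d y x) = tw c (σ d) y (std π σ x) := by
  rw [tw, std_gq (h.fa σ) (h.fb σ), map_one, tw]
  congr 1
  funext j
  rw [cq_et, ← ac_apply, h.fy]

theorem mo_pos (e : σ d = d) (x : WW a b c) : mo π d y σ x = std π σ x := if_pos e

theorem mo_neg (e : σ d ≠ d) (x : WW a b c) : mo π d y σ x = tw c d y (std π σ x) := if_neg e

theorem Md.std (h : Md π a b c d y) (σ : K ≃ₐ[k] K) :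
    Sm σ (π σ) 1 (std π σ : WW a b c → WW a b c) := std_sm (h.fa σ) (h.fb σ) (h.fc σ)

theorem Md.sim (h : Md π a b c d y) (σ : K ≃ₐ[k] K) :
    Sim σ (π σ) (mo π d y σ : WW a b c → WW a b c) := by
  by_cases e : σ d = d
  · rw [funext (mo_pos e)]
    exact ⟨_, h.std σ⟩
  · rw [funext (mo_neg e)]
    exact (tw_sim h.sq h.nm).comp ⟨_, h.std σ⟩

end et

end Vale.Agent.P011LH
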