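import Vale.Agent.P011LH.Base
import Vale.Agent.P011LT.Basic

/-!
P011 (helper1): isomorphic data.
-/

set_option linter.all false

namespace Vale.Agent.P011LH

open Vale.Agent.P011.D4 Vale.Agent.P011.D4.Oct Vale.Agent.P011.MPQ Vale.Agent.P011LD
open Equiv Function Vale.Agent.P011L

variable {k K : Type} [Field k] [Field K] [Algebra k K] {a b c a' b' c' a'' b'' c'' : Kˣ}
  {σ τ : K ≃ₐ[k] K} {π ρ : Perm (Fin 3)}

section pr

variable {X : Type} {f g h : X → WW a b c}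

theorem Pr.refl (f : X → WW a b c) : Pr f f := ⟨1, fun _ => (one_smul _ _).symm⟩

theorem Pr.of_eq (e : ∀ x, f x = g x) : Pr f g := ⟨1, fun x => (e x).trans (one_smul _ _).symm⟩

theorem Pr.symm (h : Pr f g) : Pr g f :=
  h.elim fun u hu => ⟨u⁻¹, fun x => by rw [hu, inv_smul_smul]⟩

theorem Pr.trans (h1 : Pr f g) (h2 : Pr g h) : Pr f h :=
  h1.elim fun u hu => h2.elim fun v hv => ⟨u * v, fun x => by rw [hu, hv, mul_smul]⟩

theorem Pr.right {Y : Type} (h : Pr f g) (p : Y → X) : Pr (fun y => f (p y)) fun y => g (p y) :=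
  h.imp fun _ hu y => hu (p y)

theorem Pr.left {l} {p : WW a b c → WW a' b' c'} (hp : Sm σ π l p) (h : Pr f g) :
    Pr (fun x => p (f x)) fun x => p (g x) :=
  h.elim fun u hu => ⟨au σ π u, fun x => (congrArg p (hu x)).trans (hp.usmul u _)⟩

theorem pr_smul' (u : (RR K)ˣ) (f : X → WW a b c) : Pr (fun x => u • f x) f := ⟨u, fun _ => rfl⟩

/-- maps which agree up to scalars and at one point agree -/
theorem Pr.eq (h : Pr f g) {x0 : X} (e : f x0 = g x0) (h0 : ∀ i, g x0 i ≠ 0) (x) : f x = g x := by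
  obtain ⟨u, hu⟩ := h
  have : u = 1 := usm_inj h0 (by rw [← hu, e, one_smul])
  rw [hu, this, one_smul]

end pr

theorem Sim.pr {f g : WW a b c → WW a' b' c'} (h : Sim σ π g) (e : Pr f g) : Sim σ π f := by
  obtain ⟨u, hu⟩ := e
  obtain ⟨l, hl⟩ := h
  rw [show f = fun x => u • g x from funext hu]
  exact ⟨_, hl.scale u⟩

theorem Sim.comp {f : WW a b c → WW a' b' c'} {g : WW a' b' c' → WW a'' b'' c''} (hg : Sim σ π g)
    (hf : Sim τ ρ f) : Sim (σ * τ) (π * ρ) fun x => g (f x) :=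
  hg.elim fun _ h1 => hf.elim fun _ h2 => ⟨_, h1.comp h2⟩

theorem Qs.pr {f g : WW a b c → WW a b c} (h : Qs f) (e : Pr f g) : Qs g := by
  obtain ⟨x, h1, h2, u, h3⟩ := h
  obtain ⟨v, hv⟩ := e.symm
  exact ⟨x, h1, h2, v * u, by rw [hv, h3, mul_smul]⟩

section lin

variable {l : (RR K)ˣ} {f : WW a b c → WW a' b' c'}

/-- the linear equivalence of a linear similitude -/
noncomputable def Sm.le (h : Sm (1 : K ≃ₐ[k] K) 1 l f) : WW a b c ≃ₗ[RR K] WW a' b' c' :=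
  LinearEquiv.ofBijective (⟨⟨f, h.add⟩, h.smul⟩ : WW a b c →ₗ[RR K] WW a' b' c') h.bij

theorem Sm.le_apply (h : Sm (1 : K ≃ₐ[k] K) 1 l f) (x) : h.le x = f x := rfl

theorem sm_of_le (ψ : WW a b c ≃ₗ[RR K] WW a' b' c') (h : ∀ x y, ψ (bt x y) = l • bt (ψ x) (ψ y)) :
    Sm (1 : K ≃ₐ[k] K) 1 l ψ := ⟨ψ.map_add, ψ.map_smul, ψ.bijective, h⟩

theorem le_usm (ψ : WW a b c ≃ₗ[RR K] WW a' b' c') (u : (RR K)ˣ) (x) : ψ (u • x) = u • ψ x :=
  ψ.map_smul u.1 x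

theorem le_ksm (ψ : WW a b c ≃ₗ[RR K] WW a' b' c') (t : K) (x) : ψ (t • x) = t • ψ x :=
  ψ.map_smul (fun _ => t) x

theorem symm_bt {ψ : WW a b c ≃ₗ[RR K] WW a' b' c'} (h : ∀ x y, ψ (bt x y) = l • bt (ψ x) (ψ y))
    (x y) : ψ.symm (bt x y) = l⁻¹ • bt (ψ.symm x) (ψ.symm y) := ψ.injective (by
  rw [le_usm, h, inv_smul_smul, ψ.apply_symm_apply, ψ.apply_symm_apply, ψ.apply_symm_apply])

theorem Sm.inv (h : Sm (1 : K ≃ₐ[k] K) 1 l f) : Sm (1 : K ≃ₐ[k] K) 1 l⁻¹ h.le.symm :=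
  sm_of_le _ (symm_bt (ψ := h.le) h.mul)

/-- conjugation by a similitude -/
def cS (ψ : WW a b c ≃ₗ[RR K] WW a' b' c') (h : ∀ x y, ψ (bt x y) = l • bt (ψ x) (ψ y)) :
    Spin a b c ≃* Spin a' b' c' where
  toFun g := ⟨ψ.symm.trans (g.1.trans ψ), fun x y => by
    simp only [LinearEquiv.trans_apply]
    rw [symm_bt h, le_usm, g.2, le_usm, h, inv_smul_smul]⟩
  invFun g := ⟨ψ.trans (g.1.trans ψ.symm), fun x y => by
    simp only [LinearEquiv.trans_apply]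
    rw [h, le_usm, g.2, le_usm, symm_bt h, smul_inv_smul]⟩
  left_inv g := Subtype.ext (LinearEquiv.ext fun x => by simp)
  right_inv g := Subtype.ext (LinearEquiv.ext fun x => by simp)
  map_mul' g g' := Subtype.ext (LinearEquiv.ext fun x => by simp)

theorem cS_apply (ψ : WW a b c ≃ₗ[RR K] WW a' b' c') (h : ∀ x y, ψ (bt x y) = l • bt (ψ x) (ψ y))
    (g x) : (cS ψ h g).1 x = ψ (g.1 (ψ.symm x)) := rfl

theorem cS_symm (ψ : WW a b c ≃ₗ[RR K] WW a' b' c') (h : ∀ x y, ψ (bt x y) = l • bt (ψ x) (ψ y))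
    (g x) : ((cS ψ h).symm g).1 x = ψ.symm (g.1 (ψ x)) := rfl

end lin

section iso

variable {Γ : Subgroup (K ≃ₐ[k] K)} {P P1 : (K ≃ₐ[k] K) → WW a b c → WW a b c}
  {P' : (K ≃ₐ[k] K) → WW a' b' c' → WW a' b' c'} {P'' : (K ≃ₐ[k] K) → WW a'' b'' c'' → WW a'' b'' c''}

theorem Iso.of_pr (h : ∀ σ ∈ Γ, Pr (P σ) (P1 σ)) : Iso Γ P P1 := ⟨fun x => x, ⟨1, sm_id⟩, h⟩

theorem Iso.refl (P : (K ≃ₐ[k] K) → WW a b c → WW a b c) : Iso Γ P P :=
  Iso.of_pr fun _ _ => Pr.refl _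

theorem Iso.trans (h : Iso Γ P P') (h' : Iso Γ P' P'') : Iso Γ P P'' := by
  obtain ⟨f, ⟨l, hf⟩, h1⟩ := h
  obtain ⟨g, ⟨m, hg⟩, h2⟩ := h'
  exact ⟨fun x => g (f x), ⟨_, hg.comp hf⟩, fun σ s => ((h1 σ s).left hg).trans ((h2 σ s).right f)⟩

theorem Iso.symm (h : Iso Γ P P') : Iso Γ P' P := by
  obtain ⟨f, ⟨l, hf⟩, h1⟩ := h
  refine ⟨hf.le.symm, ⟨_, hf.inv⟩, fun σ s => ?_⟩
  refine (Pr.of_eq fun x => ?_).trans ((((h1 σ s).right hf.le.symm).left hf.inv).symm.trans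
    (Pr.of_eq fun x => hf.le.symm_apply_apply _))
  rw [← hf.le_apply, hf.le.apply_symm_apply]

theorem Iso.qs (h : Iso Γ P P') (s : σ ∈ Γ) (q : Qs (P σ)) : Qs (P' σ) := by
  obtain ⟨f, ⟨l, hf⟩, h1⟩ := h
  obtain ⟨x, q1, q2, u, q3⟩ := q
  obtain ⟨v, hv⟩ := (h1 σ s).symm
  refine ⟨f x, hf.ne q1, ?_, v * u, (hv x).trans (by beta_reduce; rw [q3, hf.usmul, mul_smul]; rfl)⟩
  have := hf.mul x x
  rw [q2, hf.zero] at this
  rw [← inv_smul_smul l (bt _ _), ← this, smul_zero]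

theorem comm_iff {ψ : WW a b c ≃ₗ[RR K] WW a' b' c'}
    (e : Pr (fun x => ψ (P σ x)) fun x => P' σ (ψ x)) (g g' : WW a b c ≃ₗ[RR K] WW a b c) :
    (∀ x, g (P σ x) = P σ (g' x)) ↔ ∀ x, ψ (g (ψ.symm (P' σ x))) = P' σ (ψ (g' (ψ.symm x))) := by
  obtain ⟨u, hu⟩ := e.symm
  replace hu : ∀ x, P' σ (ψ x) = u • ψ (P σ x) := hu
  have h1 : ∀ x, ψ (g (ψ.symm (P' σ (ψ x)))) = u • ψ (g (P σ x)) := fun x => by
    rw [hu, le_usm, le_usm, le_usm, ψ.symm_apply_apply]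
  refine ⟨fun h x => ?_, fun h x => ψ.injective ?_⟩
  · rw [← ψ.apply_symm_apply x, h1, h, hu, ψ.symm_apply_apply]
  · have := h (ψ x)
    rw [h1, hu, ψ.symm_apply_apply] at this
    exact MulAction.injective u this

theorem Iso.fix (h : Iso ⊤ P P') : Nonempty (Fix P ≃* Fix P') := by
  obtain ⟨f, ⟨l, hf⟩, h1⟩ := h
  refine ⟨((cS hf.le hf.mul).subgroupMap (Fix P)).trans (MulEquiv.subgroupCongr ?_)⟩
  ext g
  obtain ⟨g, rfl⟩ := (cS hf.le hf.mul).surjective g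
  refine (Subgroup.mem_map_iff_mem (cS hf.le hf.mul).injective).trans ?_
  exact forall_congr' fun σ => comm_iff (ψ := hf.le) (h1 σ trivial) g.1 g.1

theorem Iso.ps (h : Iso ⊤ P P') (s : PSimple (Fix P')) : PSimple (Fix P) :=
  h.fix.elim fun e => P011LT.PSimple.congr e s

theorem Iso.an (h : Iso ⊤ P P') (s : An P') : An P := by
  obtain ⟨f, ⟨l, hf⟩, h1⟩ := h
  rintro m ⟨A, B, C, h2⟩ h3 t
  have := s ((cS hf.le hf.mul).toMonoidHom.comp m)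
    ⟨fun x => hf.le (A (hf.le.symm x)), fun x => hf.le (B (hf.le.symm x)),
      fun x => hf.le (C (hf.le.symm x)), fun t x => by
        show hf.le ((m t).1 (hf.le.symm x)) = _
        rw [h2, map_add, map_add, le_ksm, le_ksm]⟩
    (fun σ t x => ((comm_iff (ψ := hf.le) (h1 σ trivial) _ _).1 (fun x => (h3 σ t x).symm) x).symm) t
  exact (cS hf.le hf.mul).injective (this.trans (map_one _).symm)

end iso

end Vale.Agent.P011LH
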