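import Vale.Agent.P011LH.Cyc
import Mathlib.GroupTheory.GroupAction.Quotient
import Mathlib.GroupTheory.Index

/-!
P011 (helper1): the descent datum becomes an action over a quadratic extension.
-/

set_option linter.all false

namespace Vale.Agent.P011LH

open Vale.Agent.P011.D4 Vale.Agent.P011.D4.Oct Vale.Agent.P011.MPQ Vale.Agent.P011LD
open Equiv Function Vale.Agent.P011L

variable {k K : Type} [Field k] [Field K] [Algebra k K] {a b c a' b' c' a'' b'' c'' : Kˣ}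
  {σ τ : K ≃ₐ[k] K}

/-- the stabiliser of an element -/
def Gd (k : Type) [Field k] [Algebra k K] (d : K) : Subgroup (K ≃ₐ[k] K) := MulAction.stabilizer _ d

theorem mem_Gd {d : K} : σ ∈ Gd k d ↔ σ d = d := Iff.rfl

theorem op_top {Q : (K ≃ₐ[k] K) → Prop} (h : Op ⊤ Q) (Γ : Subgroup (K ≃ₐ[k] K)) : Op Γ Q :=
  h.elim fun S hS => ⟨S, fun σ _ => hS σ trivial⟩

theorem Sm.single' {π l} {f : WW a b c → WW a' b' c'} (h : Sm σ π l f) (i v) :
    f (Pi.single i v) = Pi.single (π i) (f (Pi.single i v) (π i)) := by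
  rw [h.single, Pi.single_eq_same]

theorem Sm.apply' {π l} {f : WW a b c → WW a' b' c'} (h : Sm σ π l f) (x i) :
    f x (π i) = f (Pi.single i (x i)) (π i) := by rw [h.apply, cp, cj_cj]

theorem Sm.uniq {π l l'} {f : WW a b c → WW a' b' c'} (h : Sm σ π l f) (h' : Sm σ π l' f) :
    l = l' := by
  obtain ⟨x, hx⟩ := h.bij.2 1
  have e := (h.pr_self x).symm.trans (h'.pr_self x)
  rw [hx, show pr (1 : WW a' b' c') 1 = 1 from funext fun i => by simp [pr]] at e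
  exact usm_inj (fun _ => oct_ne) e

variable {π : (K ≃ₐ[k] K) →* Perm (Fin 3)} {P : (K ≃ₐ[k] K) → WW a b c → WW a b c}

theorem trans3 (h3 : ∃ σ, π σ * π σ ≠ 1) (i j) : ∃ σ, π σ i = j := by
  obtain ⟨r, hr⟩ := h3
  have : ∀ ρ : Perm (Fin 3), ρ * ρ ≠ 1 → ∀ i j, i = j ∨ ρ i = j ∨ ρ (ρ i) = j := by decide
  rcases this _ hr i j with e | e | e
  exacts [⟨1, by rw [map_one]; exact e⟩, ⟨r, e⟩, ⟨r * r, by rw [map_mul]; exact e⟩]

/-- a stable point gives an action -/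
theorem act_of [IsAlgClosed K] [Algebra.IsAlgebraic k K] [Infinite k] {Γ : Subgroup (K ≃ₐ[k] K)}
    (h : DD ⊤ π P) {x : WW a b c} (x0 : ∀ i, x i ≠ 0)
    (hx : ∀ σ ∈ Γ, ∀ i, ∃ t : K, P σ x (π σ i) = t • x (π σ i)) :
    ∃ P1 : (K ≃ₐ[k] K) → WW a b c → WW a b c, (∀ σ, Pr (P σ) (P1 σ)) ∧ Sl Γ P1 ∧
      ∀ σ ∈ Γ, Sm σ (π σ) 1 (P1 σ) := by
  have e : ∀ σ, ∃ u : (RR K)ˣ, σ ∈ Γ → P σ x = u • x := fun σ => by
    by_cases s : σ ∈ Γ
    swap
    · exact ⟨1, fun e => absurd e s⟩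
    choose t ht using hx σ s
    obtain ⟨l, hl⟩ := h.sim σ trivial
    exact ⟨mku (fun j => t ((π σ).symm j)) fun j e => hl.ne x0 (π σ ((π σ).symm j))
      (by rw [ht, e, zero_smul]), fun _ => ext_perm (π σ) fun i => by
        simp only [ht, usm, mku, symm_apply_apply]⟩
  choose u hu using e
  have s1 : ∀ σ, Sim σ (π σ) fun y => (u σ)⁻¹ • P σ y := fun σ =>
    (h.sim σ trivial).pr (pr_smul' _ _)
  choose l hl using s1
  have fx : ∀ σ ∈ Γ, (u σ)⁻¹ • P σ x = x := fun σ s => by rw [hu σ s, inv_smul_smul]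
  have S : Sl Γ fun σ y => (u σ)⁻¹ • P σ y := by
    refine ⟨fun σ _ => (hl σ).add, fun σ _ => (hl σ).ksmul, fun σ s τ t => ?_, fun y => ?_⟩
    · obtain ⟨m, hm⟩ := h.sim σ trivial
      refine ((pr_smul' _ _).trans ((h.mul σ trivial τ trivial).symm.trans
        (((pr_smul' _ _).left hm).symm.trans (pr_smul' _ _).symm))).eq (x0 := x) ?_ fun i => ?_
      · rw [fx _ (mul_mem s t), fx τ t, fx σ s]
      · rw [fx τ t, fx σ s]; exact x0 i
    · refine (op_top (h.cont x y) Γ).imp fun σ s ⟨v, h1, h2⟩ => ?_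
      rw [h2, usm_inj x0 (h1.symm.trans (hu σ s)), inv_smul_smul]
  obtain ⟨m, m0, hm⟩ := h90_perm (Γ := Γ) π (fun σ _ τ _ => map_mul π σ τ) (fun σ => (l σ).1)
    (fun σ s τ t j => by
      have := ((hl σ).comp (hl τ)).congr rfl (map_mul π σ τ) rfl
      rw [← funext (S.mul σ s τ t)] at this
      rw [(hl _).uniq this, mul_comm]
      rfl)
    ((op_top h.ker Γ).and (Op.imp (S.cont 1) fun σ _ e j => by rw [((hl σ).unit e).1]; rfl))
  obtain ⟨δ, hδ⟩ := exn (mku m m0)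
  have g : Sm (1 : K ≃ₐ[k] K) 1 (mku m m0)⁻¹ fun y : WW a b c => δ • y :=
    (sm_id.scale δ).congr rfl rfl (by
      rw [mul_one, eq_comm, eq_inv_iff_mul_eq_one, mul_right_comm, hδ])
  have g' : ∀ y, g.le.symm y = δ⁻¹ • y := fun y =>
    g.le.symm_apply_eq.2 (smul_inv_smul δ y).symm
  refine ⟨_, fun σ => ?_, sl_tr S g.le.symm, fun σ s =>
    (g.comp ((hl σ).comp g.inv)).congr rfl rfl ?_⟩
  · obtain ⟨n, hn⟩ := h.sim σ trivial
    exact (((pr_smul' δ _).trans ((pr_smul' _ _).trans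
      (((Pr.of_eq g').trans (pr_smul' δ⁻¹ fun y => y)).left hn))).symm :)
  · rw [inv_inv, au_one, eq_comm, mul_inv_eq_one, mul_comm]
    exact Units.ext (funext (hm σ s))

theorem lift (hb : BR2) [NumberField k] [IsAlgClosure k K] (h : DD ⊤ π P)
    (h3 : ∃ σ, π σ * π σ ≠ 1) :
    ∃ (a0 : k) (d : K) (P1 : (K ≃ₐ[k] K) → WW a b c → WW a b c), d ≠ 0 ∧
      d ^ 2 = algebraMap k K a0 ∧ (∃ σ, π σ = 1 ∧ σ d = -d) ∧
      (∀ φ : k →+* ℝ, 0 < φ a0 ↔ ∀ w κ, Ov φ w → Cc w κ → Qs (P κ)) ∧ (∀ σ, Pr (P σ) (P1 σ)) ∧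
      Sl (Gd k d) P1 ∧ ∀ σ ∈ Gd k d, Sm σ (π σ) 1 (P1 σ) := by
  haveI := IsAlgClosure.isAlgClosed k (K := K)
  haveI : CharZero K := charZero_of_injective_algebraMap (algebraMap k K).injective
  haveI : Nontrivial (Oct a b c) := ⟨1, 0, oct_ne⟩
  letI := MulAction.compHom (Fin 3) π
  haveI : MulAction.IsPretransitive (K ≃ₐ[k] K) (Fin 3) := ⟨trans3 h3⟩
  have mem : ∀ σ, σ ∈ MulAction.stabilizer (K ≃ₐ[k] K) (0 : Fin 3) ↔ π σ 0 = 0 := fun _ => Iff.rfl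
  choose l hl using fun σ => h.sim σ trivial
  have sg : ∀ σ, π σ 0 = 0 → ∀ v, P σ (Pi.single 0 v) = Pi.single 0 (P σ (Pi.single 0 v) 0) :=
    fun σ s v => by simpa only [s] using (hl σ).single' 0 v
  have pe : ∀ σ, π σ 0 = 0 → ∀ v, P σ (Pi.single 0 v) 0 = cj (π σ) (cp (π σ) (P σ) 0 v) :=
    fun σ s v => by rw [cp, cj_cj, s]
  obtain ⟨a0, d, d0, d2, ⟨s0, s1, s2⟩, h4, v, v0, hv⟩ := hb k K (Oct a b c)
    (LinearMap.mk₂ K bil bil_add_left bil_smul_left bil_add_right bil_smul_right)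
    (MulAction.stabilizer _ (0 : Fin 3)) π.ker (fun σ v => P σ (Pi.single 0 v) 0)
    {φ | ∀ w κ, Ov φ w → Cc w κ → Qs (P κ)} bil_comm (fun _ => eq_zero_of_bil)
    ((MulAction.index_stabilizer_of_transitive _ _).trans (by simp))
    (h.ker.imp fun σ _ e => (mem σ).2 (by rw [e]; rfl)) h.ker
    (fun σ s => ⟨fun v w => by rw [Pi.single_add, (hl σ).add]; rfl,
      fun t v => by rw [Pi.single_smul, (hl σ).ksmul]; rfl,
      by rw [funext (pe σ s)]; exact cj_bij.comp ((hl σ).cm.bij 0),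
      ⟨((sh (l σ)).1 0)⁻¹, fun v w => by
        have := (hl σ).bil (Pi.single 0 v) (Pi.single 0 w) 0
        rw [(mem σ).1 s, Pi.single_eq_same, Pi.single_eq_same] at this
        rw [LinearMap.mk₂_apply, LinearMap.mk₂_apply, this, inv_mul_cancel_left₀ (une _ _)]⟩,
      fun τ t => (h.mul σ trivial τ trivial).elim fun u hu => ⟨u.1 0, fun v => by
        rw [← sg τ t]; exact congrFun (hu _) 0⟩⟩)
    (fun v w => (op_top (h.cont (Pi.single 0 v) (Pi.single 0 w)) _).imp fun σ _ ⟨u, h1, h2⟩ =>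
      ⟨u.1 0, congrFun h1 0, congrFun h2 0⟩)
    (fun φ hφ w κ h1 h2 s => by
      obtain ⟨x, x0, -, u, hu⟩ := hφ w κ h1 h2
      refine ⟨x 0, x0 0, u.1 0, ?_⟩
      have := (hl κ).apply' x 0
      rw [(mem κ).1 s, hu] at this
      exact this.symm)
  have er : ∀ i, ∃ r : K ≃ₐ[k] K, r d = d ∧ π r 0 = i := fun i => by
    obtain ⟨r, hr⟩ := trans3 h3 0 i
    rcases sq_eq_sq_iff_eq_or_eq_neg.1 (by rw [← map_pow, d2, r.commutes] : r d ^ 2 = d ^ 2)
      with e | e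
    · exact ⟨r, e, hr⟩
    · exact ⟨r * s0, by rw [AlgEquiv.mul_apply, s2, map_neg, e, neg_neg],
        by rw [map_mul, π.mem_ker.1 s1, mul_one, hr]⟩
  choose r r1 r2 using er
  have rs : ∀ i, P (r i) (Pi.single 0 v) = Pi.single i (P (r i) (Pi.single 0 v) i) := fun i => by
    simpa only [r2] using (hl (r i)).single' 0 v
  obtain ⟨P1, h5⟩ := act_of (Γ := Gd k d) h (x := fun i => P (r i) (Pi.single 0 v) i)
    (fun i e => v0 (by
      have := rs i
      rw [e, Pi.single_zero, ← (hl (r i)).zero] at this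
      simpa using congrFun ((hl (r i)).bij.1 this) 0))
    fun σ s i => by
      obtain ⟨u, hu⟩ := h.mul σ trivial (r i) trivial
      obtain ⟨u', hu'⟩ := (h.mul (r (π σ i)) trivial ((r (π σ i))⁻¹ * (σ * r i)) trivial).symm
      have t0 : π ((r (π σ i))⁻¹ * (σ * r i)) 0 = 0 := by
        rw [map_mul, map_mul, map_inv, Perm.mul_apply, Perm.mul_apply, r2, Perm.inv_eq_iff_eq, r2]
      obtain ⟨t, ht⟩ := hv _ t0 (mul_mem (inv_mem (mem_Gd.2 (r1 _))) (mul_mem s (mem_Gd.2 (r1 i))))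
      rw [mul_inv_cancel_left] at hu'
      refine ⟨u.1 (π σ i) * (u'.1 (π σ i) * r (π σ i) t), ?_⟩
      rw [(hl σ).apply', ← rs]
      refine (congrFun (hu _) _).trans ?_
      rw [hu']
      beta_reduce
      rw [sg _ t0, ht, Pi.single_smul, (hl _).ksmul, usm, usm, Pi.smul_apply, smul_smul,
        smul_smul, mul_assoc]
  exact ⟨a0, d, P1, d0, d2, ⟨s0, s1, s2⟩, h4, h5⟩

end Vale.Agent.P011LH
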