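import Vale.Agent.P011LH.Lift
import Vale.Agent.P011LR.Ar
import Vale.Agent.P011LQ.Two

/-!
P011 (helper1): singular points in general position.
-/

set_option linter.all false

namespace Vale.Agent.P011LH

open Vale.Agent.P011.D4 Vale.Agent.P011.D4.Oct Vale.Agent.P011.MPQ Vale.Agent.P011LD
open Equiv Function Vale.Agent.P011L Polynomial

variable {k K : Type} [Field k] [Field K] [Algebra k K] {a b c a' b' c' a'' b'' c'' : Kˣ}
  {σ τ : K ≃ₐ[k] K} {π : (K ≃ₐ[k] K) →* Perm (Fin 3)}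

theorem Cc.real {w : K →+* ℂ} (h : Cc w σ) {t : K} (e : σ t = t) : w t = (w t).re :=
  (Complex.conj_eq_iff_re.1 (by rw [← h, e])).symm

theorem Cc.sq {w : K →+* ℂ} (h : Cc w σ) : σ * σ = 1 :=
  AlgEquiv.ext fun x => w.injective (by rw [AlgEquiv.mul_apply, h, h, Complex.conj_conj]; rfl)

theorem indef {w : K →+* ℂ} (h : Cc w σ) (ha : σ a = a) (hb : σ b = b) (hc : σ c = c)
    (a0 : (w a).re < 0) (b0 : (w b).re < 0) (c0 : (w c).re < 0) {x : Oct a b c}
    (hx : bil x (cm σ x) = 0) : x = 0 := by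
  have hw : ∀ t, w (t * σ t) = Complex.normSq (w t) := fun t => by rw [map_mul, h, Complex.mul_conj]
  have e : bil x (cm σ x) = 2 * (x.fst.re * σ x.fst.re - a * (x.fst.imI * σ x.fst.imI) -
      b * (x.fst.imJ * σ x.fst.imJ) + a * (b * (x.fst.imK * σ x.fst.imK))) -
      c * (2 * (x.snd.re * σ x.snd.re - a * (x.snd.imI * σ x.snd.imI) -
      b * (x.snd.imJ * σ x.snd.imJ) + a * (b * (x.snd.imK * σ x.snd.imK)))) := by
    simp only [bil_eq, cm, cq]; ring
  have e2 := congrArg w (e.symm.trans hx)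
  simp only [map_sub, map_add, map_mul w 2, map_mul w a.1, map_mul w b.1, map_mul w c.1, hw, map_zero,
    map_ofNat] at e2
  rw [h.real ha, h.real hb, h.real hc] at e2
  norm_cast at e2
  generalize (w a).re = A at e2 a0
  generalize (w b).re = B at e2 b0
  generalize (w c).re = C at e2 c0
  have z : ∀ t, ∀ r : ℝ, 0 < r → r * Complex.normSq (w t) ≤ 0 → t = 0 := fun t r h1 h2 =>
    (map_eq_zero w).1 (Complex.normSq_eq_zero.1 (le_antisymm (nonpos_of_mul_nonpos_right h2 h1)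
      (Complex.normSq_nonneg _)))
  have p : ∀ t, ∀ r : ℝ, 0 < r → 0 ≤ r * Complex.normSq (w t) := fun t r h1 =>
    mul_nonneg h1.le (Complex.normSq_nonneg _)
  have q1 : 0 < -A := neg_pos.2 a0
  have q2 : 0 < -B := neg_pos.2 b0
  have q3 : 0 < -C := neg_pos.2 c0
  have q4 := mul_pos q1 q2
  have p1 := p x.fst.re _ one_pos
  have p2 := p x.fst.imI _ q1
  have p3 := p x.fst.imJ _ q2
  have p4 := p x.fst.imK _ q4
  have p5 := p x.snd.re _ q3
  have p6 := p x.snd.imI _ (mul_pos q3 q1)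
  have p7 := p x.snd.imJ _ (mul_pos q3 q2)
  have p8 := p x.snd.imK _ (mul_pos q3 q4)
  exact ext8 (z _ _ one_pos (by linarith)) (z _ _ q1 (by linarith)) (z _ _ q2 (by linarith))
    (z _ _ q4 (by linarith)) (z _ _ q3 (by linarith)) (z _ _ (mul_pos q3 q1) (by linarith))
    (z _ _ (mul_pos q3 q2) (by linarith)) (z _ _ (mul_pos q3 q4) (by linarith))

variable [NeZero (2 : K)]

theorem qs_std (h2 : σ * σ = 1) (h : Qs (std π σ : WW a b c → _)) :
    ∃ x : Oct a b c, x ≠ 0 ∧ bil x (cm σ x) = 0 := by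
  obtain ⟨x, x0, h1, u, hu⟩ := h
  have m : ∀ i, x i * x (i + 1) = 0 := fun i => by
    have := congrFun h1 (i + 2)
    rw [bt, f21, f22, Pi.zero_apply, star_eq_zero, ← two_smul K] at this
    exact (smul_eq_zero.1 this).resolve_left (NeZero.ne 2)
  have : ∀ ρ : Perm (Fin 3), ρ * ρ = 1 → ρ = 1 ∨ Perm.sign ρ = -1 ∧ ∃ i, ρ i = i + 1 := by decide
  rcases this (π σ) (by rw [← map_mul, h2, map_one]) with e | ⟨e, i, hi⟩
  · have e1 := congrFun hu (π σ 0)
    rw [std_perm, e, cj_one] at e1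
    have e2 := star_mul_mul (x 0) (x 1)
    rw [show x 0 * x 1 = 0 from m 0, mul_zero, eq_comm, smul_eq_zero] at e2
    exact ⟨x 0, x0 0, by
      rw [e1, usm, bil_smul_right, Perm.one_apply, bil_self, e2.resolve_right (x0 1)]; ring⟩
  · have e1 := congrFun hu (π σ i)
    rw [std_perm, cj_odd e, hi, usm] at e1
    exact ⟨x i, x0 i, by rw [bil_eq_dot, dot, e1, mul_smul_oct, m]; simp⟩

theorem iso_pure [NumberField k] [IsAlgClosure k K] {d : K}
    (hf : ∀ σ ∈ Gd k d, σ a = a ∧ σ b = b ∧ σ c = c)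
    (h : ∀ w κ, Cc w κ → κ ∈ Gd k d → Qs (std π κ : WW a b c → _)) :
    ∃ v : Oct a b c, v ≠ 0 ∧ bil v 1 = 0 ∧ bil gj v = 0 ∧ norm v = 0 ∧
      ∀ σ ∈ Gd k d, cm σ v = v := by
  have := P011LR.nf_ff (Γ := Gd k d) (Op.fix ⊤ d)
  let u : ∀ a : Kˣ, (∀ σ ∈ Gd k d, σ a = a) → (IntermediateField.fixedField (Gd k d))ˣ :=
    fun a ha => Units.mk0 ⟨a, P011LR.mem_ff.2 ha⟩ fun e => a.ne_zero (congrArg Subtype.val e)
  obtain ⟨x, y, z, t, e⟩ := P011.Arith.Sch.quaternion_norm (u a fun σ s => (hf σ s).1)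
    (u b fun σ s => (hf σ s).2.1) (u c fun σ s => (hf σ s).2.2) fun φ h1 h2 => by
      obtain ⟨w, κ, w1, w2⟩ := P011LQ.exists_cj (K := K) φ
      have s : κ.restrictScalars k ∈ Gd k d := κ.commutes ⟨d, P011LR.mem_ff.2 fun _ s => s⟩
      obtain ⟨v, v0, hv⟩ := qs_std (Cc.sq (σ := κ.restrictScalars k) w1) (h w _ w1 s)
      have r : ∀ x, φ x < 0 → (w x.1).re < 0 := fun x h => (congrArg Complex.re (w2 x)).trans_lt h
      refine lt_of_le_of_ne (not_lt.1 fun h3 => v0 ?_) ((map_ne_zero φ).2 (Units.ne_zero _)).symm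
      exact indef (σ := κ.restrictScalars k) w1 (hf _ s).1 (hf _ s).2.1 (hf _ s).2.2
        (r _ h1) (r _ h2) (r _ h3) hv
  replace e : (c : K) = nrd (⟨x, y, z, t⟩ : Qt a b) := congrArg Subtype.val e
  refine ⟨⟨⟨0, 1, 0, 0⟩, (c : K)⁻¹ • (⟨0, 1, 0, 0⟩ * ⟨x, y, z, t⟩)⟩,
    fun h => one_ne_zero (congrArg (fun v : Oct a b c => v.fst.imI) h), by simp [bil_eq],
    by simp [bil_eq, gj], ?_, fun σ s => Oct.ext (by simp [cm, cq]) ?_⟩
  · rw [Oct.norm, nrd_smul, nrd_mul, ← e]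
    have := c.ne_zero
    field_simp
    ring
  · have f : ∀ x : IntermediateField.fixedField (Gd k d), σ x = x := fun x =>
      P011LR.mem_ff.1 x.2 σ s
    rw [cm, cq_smul, cq_mul (hf σ s).1 (hf σ s).2.1, map_inv₀, (hf σ s).2.2]
    simp [cq, f]

/-- the reflection of `v` in `t` -/
def rf (v t : Oct a b c) : Oct a b c := norm t • v - bil t v • t

/-- the pure part -/
def pl : Oct a b c →ₗ[K] Oct a b c where
  toFun t := t - star t
  map_add' x y := by rw [star_add]; abel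
  map_smul' t x := by rw [star_smul_oct, RingHom.id_apply, smul_sub]

omit [NeZero (2 : K)] in
theorem bil_pl (x y : Oct a b c) : bil (pl x) y = bil x (pl y) := by
  show bil (x - star x) y = bil x (y - star y)
  rw [bil_sub_left, bil_sub_right, bil_star_left]

omit [NeZero (2 : K)] in
theorem norm_rf {v : Oct a b c} (h : norm v = 0) (t) : norm (rf v t) = 0 := by
  rw [rf, Oct.norm_sub, Oct.norm_smul, Oct.norm_smul, bil_smul_left, bil_smul_right, h,
    bil_comm v]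
  ring

theorem rf_span {v z : Oct a b c} (v0 : v ≠ 0) (v1 : bil v 1 = 0) (v2 : bil gj v = 0)
    (h : ∀ t, bil (rf v (pl t)) z = 0) : star z = z := by
  have h2 : (2 : K) ≠ 0 := NeZero.ne 2
  simp only [rf, bil_sub_left, bil_smul_left] at h
  have e0 : pl (gj : Oct a b c) = (2 : K) • gj := by apply ext8 <;> simp [pl, gj] <;> ring
  have e1 := h gj
  rw [e0, bil_smul_left, v2, Oct.norm_smul] at e1
  have e2 : bil v z = 0 := by simpa [h2, Oct.norm, nrd, gj] using e1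
  simp only [e2, mul_zero, zero_sub, neg_eq_zero, mul_eq_zero] at h
  obtain ⟨t1, h1⟩ : ∃ t, bil (pl t) v ≠ 0 := by
    by_contra hc
    push Not at hc
    have : pl v = 0 := eq_zero_of_bil fun t => by rw [bil_comm, ← bil_pl, hc]
    rw [show pl v = v - star v from rfl, star_neg_of_pure v1, sub_neg_eq_add, ← two_smul K] at this
    exact v0 ((smul_eq_zero.1 this).resolve_left h2)
  refine (sub_eq_zero.1 (eq_zero_of_bil (x := pl z) fun t => ?_)).symm
  rw [bil_comm, ← bil_pl]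
  by_contra h3
  have h4 := (h t).resolve_right h3
  have h5 := h (t + t1)
  rw [map_add, bil_add_left, bil_add_left, h4, (h t1).resolve_left h1, zero_add, add_zero] at h5
  exact h5.elim h1 h3

omit [NeZero (2 : K)] in
theorem lp_bil {U : Type} [AddCommGroup U] [Module K U] (A B : U →ₗ[K] Oct a b c) :
    LP fun u => bil (A u) (B u) := fun x y =>
  ⟨C (bil (A x) (B x)) + C (bil (A x) (B y) + bil (A y) (B x)) * X + C (bil (A y) (B y)) * X ^ 2,
    fun t => by
      simp only [map_add, map_smul, bil_add_left, bil_add_right, bil_smul_left, bil_smul_right,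
        eval_add, eval_mul, eval_C, eval_X, eval_pow]
      ring⟩

omit [NeZero (2 : K)] in
theorem lp_bilc {U : Type} [AddCommGroup U] [Module K U] (A : U →ₗ[K] Oct a b c) (v) :
    LP fun u => bil (A u) v := fun x y =>
  ⟨C (bil (A x) v) + C (bil (A y) v) * X, fun t => by
    simp only [map_add, map_smul, bil_add_left, bil_smul_left, eval_add, eval_mul, eval_C, eval_X]
    ring⟩

theorem lp_norm {U : Type} [AddCommGroup U] [Module K U] (A : U →ₗ[K] Oct a b c) :
    LP fun u => norm (A u) := by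
  simpa only [bil_self, inv_mul_cancel_left₀ (NeZero.ne (2 : K))] using
    (LP.const (2 : K)⁻¹).mul (lp_bil A A)

theorem lp_rf {U : Type} [AddCommGroup U] [Module K U] (A B : U →ₗ[K] Oct a b c) (v w) :
    LP fun u => bil (rf v (A u)) (rf w (B u)) := by
  simp only [rf, bil_sub_left, bil_sub_right, bil_smul_left, bil_smul_right, bil_comm v]
  exact ((lp_norm B).mul (((lp_norm A).mul (LP.const _)).sub ((lp_bilc A v).mul (lp_bilc A w)))).sub
    ((lp_bilc B w).mul (((lp_norm A).mul (lp_bilc B v)).sub ((lp_bilc A v).mul (lp_bil A B))))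

theorem lp_two (L : Oct a b c →ₗ[K] Oct a b c) (v w) :
    LP fun u : Bool → Oct a b c => bil (rf v (pl (u false))) (rf w (L (u true))) := by
  simpa only [LinearMap.comp_apply, LinearMap.proj_apply] using
    lp_rf (pl ∘ₗ LinearMap.proj (φ := fun _ : Bool => Oct a b c) false)
      (L ∘ₗ LinearMap.proj (φ := fun _ : Bool => Oct a b c) true) v w

omit [NeZero (2 : K)] in
theorem cj_pure {v : Oct a b c} (h : bil v 1 = 0) (ρ : Perm (Fin 3)) :
    cj ρ v = (((Perm.sign ρ : ℤˣ) : ℤ) : K) • v := by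
  rcases perm_cases ρ with ⟨e, -⟩ | ⟨e, -⟩
  · simp [cj_even e, e]
  · simp [cj_odd e, e, star_neg_of_pure h]

section

variable {m : RR K} {G : Fin 3 → Oct a b c → Oct a b c} (g : Cm τ m G) (ρ : Perm (Fin 3))
include g

omit [NeZero (2 : K)] in
theorem ex_lin (i) : ∃ L : Oct a b c →ₗ[K] Oct a b c, ∀ t, L (G 0 t) = cj ρ (G i (pl t)) := by
  obtain ⟨e, e1⟩ := (g.bij 0).1.hasLeftInverse
  replace e1 : ∀ t, e (G 0 t) = t := e1
  refine ⟨⟨⟨fun t => cj ρ (G i (pl (e t))), fun x y => ?_⟩, fun t x => ?_⟩, fun t =>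
    congrArg (fun t => cj ρ (G i (pl t))) (e1 t)⟩
  · obtain ⟨x, rfl⟩ := (g.bij 0).2 x
    obtain ⟨y, rfl⟩ := (g.bij 0).2 y
    rw [← g.add, e1, e1, e1, map_add, g.add, cj_add]
  · obtain ⟨x, rfl⟩ := (g.bij 0).2 x
    obtain ⟨t, rfl⟩ := τ.surjective t
    simp only [← g.smul 0, e1, map_smul, g.smul i, cj_smul, RingHom.id_apply]

omit [NeZero (2 : K)] in
theorem cm_rf (i v t) : cj ρ (G i (rf v t)) =
    (m (i + 1) * m (i + 2)) • rf (cj ρ (G i v)) (cj ρ (G i t)) := by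
  rw [rf, rf, g.sub, g.smul, g.smul, g.norm i, g.bil i, cj_norm, cj_bil, sub_eq_add_neg, cj_add,
    ← neg_smul, cj_smul, cj_smul]
  module

theorem rf_ne (m0 : ∀ i, m i ≠ 0) {v : Oct a b c} (v0 : v ≠ 0) (v1 : bil v 1 = 0)
    (v2 : bil gj v = 0) (v3 : norm v = 0) (i) :
    ∃ s t, bil (rf v (pl s)) (rf (cj ρ (G i v)) (cj ρ (G i (pl t)))) ≠ 0 := by
  by_contra hc
  push Not at hc
  have e2 : ∀ t, rf v (pl t) = 0 := fun t => by
    have e3 : star (cj ρ (G i (rf v (pl t)))) = _ := rf_span v0 v1 v2 fun s => by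
      rw [cm_rf g, bil_smul_right, hc, mul_zero]
    have e4 := g.norm i (rf v (pl t))
    rw [norm_rf v3, map_zero, eq_comm, mul_eq_zero, ← cj_norm (π := ρ)] at e4
    by_contra n
    refine g.ne i n (cj_bij (π := ρ).1 ?_)
    generalize cj ρ (G i (rf v (pl t))) = z at e3 e4
    have e5 := add_star_self z
    rw [e3, ← two_smul K] at e5
    have e6 := congrArg Oct.norm e5
    rw [Oct.norm_smul, Oct.norm_smul, e4.resolve_left (mul_ne_zero (m0 _) (m0 _)), Oct.norm_one,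
      mul_zero, mul_one, eq_comm, sq_eq_zero_iff] at e6
    rw [e6, zero_smul, smul_eq_zero] at e5
    rw [e5.resolve_left (NeZero.ne 2), ← zero_smul K 0, cj_smul, zero_smul, zero_smul]
  have := rf_span (z := gi) v0 v1 v2 fun t => by rw [e2, bil_zero_left]
  have := congrArg (fun v : Oct a b c => v.fst.imI) this
  exact NeZero.ne (2 : K) (by simp [gi] at this; linear_combination -this)

theorem gen [Algebra.IsAlgebraic k K] [Infinite k] {Γ : Subgroup (K ≃ₐ[k] K)}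
    {α : (K ≃ₐ[k] K) → Oct a b c → Oct a b c} (S : Sl Γ α) {d : K} (hΓ : ∀ σ ∈ Γ, σ d = d)
    (hd : τ d ≠ d) (m0 : ∀ i, m i ≠ 0) {v : Oct a b c} (v0 : v ≠ 0) (v1 : bil v 1 = 0)
    (v2 : bil gj v = 0) (v3 : norm v = 0) :
    ∃ t ∈ Fx Γ α, ∀ i, bil (rf v (pl t)) (cj ρ (G i (rf v (pl t)))) ≠ 0 := by
  choose L hL using ex_lin g ρ
  have D := S.dn_conj (J := Bool) (U := fun _ => Oct a b c)
    (fun j => cond j τ 1) (fun i j e => by
      have := e d hΓ
      cases i <;> cases j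
      exacts [rfl, absurd this.symm hd, absurd this hd, rfl]) (fun j => cond j (G 0) id)
    (fun j => by cases j; exacts [fun _ _ => rfl, g.add 0])
    (fun j => by cases j; exacts [fun _ _ => rfl, g.smul 0])
    (fun j => by cases j; exacts [surjective_id, (g.bij 0).2])
  obtain ⟨_, ⟨t, t1, rfl⟩, t2⟩ := D.dens Finset.univ
    (f := fun i u => bil (rf v (pl (u false))) (rf (cj ρ (G i v)) (L i (u true))))
    (fun i _ => lp_two (L i) _ _) fun i _ => by
      obtain ⟨s, t, e⟩ := rf_ne g ρ m0 v0 v1 v2 v3 i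
      rw [← hL] at e
      exact ⟨fun j => cond j (G 0 t) s, e⟩
  refine ⟨t, t1, fun i => ?_⟩
  rw [cm_rf g, bil_smul_right, ← hL]
  exact mul_ne_zero (mul_ne_zero (m0 _) (m0 _)) (t2 i (Finset.mem_univ i))

end

theorem sing [NumberField k] [IsAlgClosure k K] {d : K} (hk : Op ⊤ fun σ => π σ = 1)
    (hf : ∀ σ ∈ Gd k d, σ a = a ∧ σ b = b ∧ σ c = c)
    (h : ∀ w κ, Cc w κ → κ ∈ Gd k d → Qs (std π κ : WW a b c → _)) {ρ l}
    {f : WW a b c → WW a b c} (hs : Sm τ ρ l f) (hd : τ d ≠ d) :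
    ∃ x : WW a b c, (∀ σ ∈ Gd k d, std π σ x = x) ∧ pr x x = 0 ∧ (∀ i, norm (x i) = 0) ∧
      ∀ i, bil (x i) (f x i) ≠ 0 := by
  obtain ⟨v, v0, v1, v2, v3, v4⟩ := iso_pure hf h
  have hm := fun σ s => hm_cm (hf σ s).1 (hf σ s).2.1 (hf σ s).2.2
  have S : Sl (Gd k d) (cm : _ → Oct a b c → _) :=
    ⟨fun σ s => (hm σ s).add, fun σ s => (hm σ s).smul, fun _ _ _ _ => cm_mul, op_cm _⟩
  obtain ⟨t, t1, t2⟩ := gen hs.cm ρ S (fun _ s => s) hd (fun _ => une _ _) v0 v1 v2 v3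
  obtain ⟨n, n0, hn⟩ := h90_perm (Γ := Gd k d) π (fun σ _ τ _ => map_mul π σ τ)
    (fun σ _ => (((Perm.sign (π σ) : ℤˣ) : ℤ) : K)) (fun σ _ τ _ _ => by simp)
    ((op_top hk _).imp fun σ _ e => ⟨e, fun _ => by simp [e]⟩)
  have p1 : bil (rf v (pl t)) 1 = 0 := by
    rw [rf, bil_sub_left, bil_smul_left, bil_smul_left, v1, bil_pl t 1,
      show pl (1 : Oct a b c) = 0 from by simp [pl], bil_zero_right]
    ring
  have p2 : ∀ σ ∈ Gd k d, cm σ (rf v (pl t)) = rf v (pl t) := fun σ s => by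
    have e : cm σ (pl t) = pl t := by
      rw [show pl t = t - star t from rfl, S.sub s, cm_star, t1 σ s]
    rw [rf, S.sub s, S.smul σ s, S.smul σ s, ← (hm σ s).norm, ← (hm σ s).bil, e, v4 σ s]
  have p3 := norm_rf v3 (pl t)
  generalize rf v (pl t) = z at t2 p1 p2 p3
  refine ⟨fun i => n i • z, fun σ s => funext fun j => ?_, funext fun i => ?_,
    fun i => by rw [Oct.norm_smul, p3, mul_zero], fun j => ?_⟩
  · rw [std, dg, S.smul σ s, p2 σ s, cj_smul, cj_pure p1, smul_smul, mul_comm, hn σ s]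
  · rw [pr, smul_mul_oct, mul_smul_oct, mul_self_of_pure p1, p3]
    simp
  · obtain ⟨i, rfl⟩ := ρ.surjective j
    rw [hs.apply, hs.cm.smul, cj_smul, bil_smul_left, bil_smul_right]
    exact mul_ne_zero (n0 _) (mul_ne_zero ((map_ne_zero τ).2 (n0 _)) (t2 i))

end Vale.Agent.P011LH
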