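import Vale.Agent.P011LH.Mod
import Vale.Agent.P011LH.Sing

/-!
P011 (helper1): the anisotropic trialitarian groups.
-/

set_option linter.all false

namespace Vale.Agent.P011LH

open Vale.Agent.P011.D4 Vale.Agent.P011.D4.Oct Vale.Agent.P011.MPQ Vale.Agent.P011LD
open Equiv Function Vale.Agent.P011L

variable {k K : Type} [Field k] [NumberField k] [Field K] [Algebra k K] [IsAlgClosure k K]
  {a b c : Kˣ} {π : (K ≃ₐ[k] K) →* Perm (Fin 3)} {P : (K ≃ₐ[k] K) → WW a b c → WW a b c}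

theorem model (hb : BR2) (hr : RED) (h : DD ⊤ π P) (h3 : ∃ σ, π σ * π σ ≠ 1) :
    ∃ (a0 : k) (d : K), d ^ 2 = algebraMap k K a0 ∧ (∃ σ, π σ = 1 ∧ σ d = -d) ∧
      (∀ φ : k →+* ℝ, 0 < φ a0 ↔ ∀ w κ, Ov φ w → Cc w κ → Qs (P κ)) ∧ Mo π d P := by
  haveI := IsAlgClosure.isAlgClosed k (K := K)
  haveI : CharZero K := charZero_of_injective_algebraMap (algebraMap k K).injective
  obtain ⟨a0, d, P1, d0, d2, ⟨s, s1, s2⟩, h4, h5, h6, h7⟩ := lift hb h h3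
  refine ⟨a0, d, d2, ⟨s, s1, s2⟩, h4, ?_⟩
  obtain ⟨e, x, r1, r2⟩ := hr k K a b c (Gd k d) π P1 (Op.fix ⊤ d) (op_top h.ker _) h6 h7
  obtain ⟨a', b', c', ψ, l, q1, -, -, q2⟩ := cyc h6 h7 r1 r2
  have m1 : ∀ σ τ, Pr (fun x => P1 σ (P1 τ x)) (P1 (σ * τ)) := fun σ τ =>
    (h.sim σ trivial).elim fun _ hl => (((h5 σ).right _).symm.trans
      (((h5 τ).left hl).symm.trans (h.mul σ trivial τ trivial))).trans (h5 _)
  have ex : ∀ σ, ∃ f, Sm σ (π σ) 1 f ∧ Pr f (fun x => q1.le.symm (P1 σ (ψ x))) ∧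
      (σ d = d → f = std π σ) := fun σ => by
    by_cases t : σ d = d
    · exact ⟨_, std_sm (q2 σ t).1 (q2 σ t).2.1 (q2 σ t).2.2.1, Pr.of_eq fun x => by
        rw [(q2 σ t).2.2.2]; exact (q1.le.symm_apply_apply _).symm, fun _ => rfl⟩
    · obtain ⟨m, hm⟩ := (h.sim σ trivial).pr (h5 σ).symm
      obtain ⟨u, hu⟩ := (q1.inv.comp (hm.comp q1)).exact
      exact ⟨_, hu, pr_smul' _ _, fun e => absurd e t⟩
  choose Q t1 t2 t3 using ex
  have E : EX π Q := ⟨t1, fun σ τ => ((((t2 τ).left (t1 σ)).trans ((t2 σ).right _)).trans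
      (mul_tr m1 q1 σ τ)).trans (t2 _).symm,
    fun x => ((op_std h.ker x).and (Op.fix ⊤ d)).imp fun σ _ e => by rw [t3 σ e.2, e.1]⟩
  have I : Iso ⊤ Q P := ((Iso.of_pr fun σ _ => t2 σ).trans (iso_tr P1 q1)).trans
    (Iso.of_pr fun σ _ => (h5 σ).symm)
  have pm : ∀ σ : K ≃ₐ[k] K, σ d = d ∨ σ d = -d := fun σ =>
    sq_eq_sq_iff_eq_or_eq_neg.1 (by rw [← map_pow, d2, σ.commutes])
  have s3 : s d ≠ d := by
    rw [s2]
    exact neg_ne (a := Units.mk0 _ (pow_ne_zero 2 d0)) rfl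
  obtain ⟨z, z1, z2, z3, z4⟩ := sing h.ker (fun σ t => ⟨(q2 σ t).1, (q2 σ t).2.1, (q2 σ t).2.2.1⟩)
    (fun w κ hw t => by
      obtain ⟨φ, hφ⟩ := P011LQ.descend (w.comp (algebraMap k K)) Complex.ofRealHom
        Complex.ofReal_injective fun x => ⟨_, (hw.real (κ.commutes x)).symm⟩
      rw [← t3 κ t]
      refine I.symm.qs trivial ((h4 φ).1 ?_ w κ (fun x => (hφ x).symm) hw)
      have e1 : (φ a0 : ℂ) = ((w d).re ^ 2 : ℝ) := by
        rw [Complex.ofReal_pow, ← hw.real t, ← map_pow, d2]; exact hφ a0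
      rw [Complex.ofReal_injective e1]
      exact sq_pos_of_ne_zero fun e => d0 ((map_eq_zero w).1 (by rw [hw.real t, e]; rfl)))
    (t1 s) s3
  obtain ⟨y, x, x', y1, y2, y3⟩ := exists_pa E pm s3 (fun σ t => by rw [t3 σ t, z1 σ t]) z2 z3 z4
  exact (mo_ud E pm d0 y2 y1 (y3.ud E y2)).iso I

/-- **The anisotropic trialitarian groups.** -/
theorem hd_of (h1 : START) (hb : BR2) (hr : RED) (h2 : SGN) (h3 : DICT) : HD := by
  intro k K _ _ _ _ _ T an ⟨σ, hσ⟩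
  obtain ⟨π, P, D, ⟨e⟩, p1, p2⟩ := h1 k K T
  have p3 : ∃ σ, π σ * π σ ≠ 1 := ⟨σ, fun e => hσ (p2 _ (by rw [map_mul, e]))⟩
  obtain ⟨a0, d, d2, s, h4, a, b, c, y, M, I⟩ := model hb hr D p3
  obtain ⟨b', c', M', S, I'⟩ := h2 k K π a b c d y D.ker M p3 (I.an (p1 an)) fun φ w o n => by
    by_contra hc
    push Not at hc
    have := (h4 φ).2 fun w κ h1 h2 => I.qs trivial (hc w κ h1 h2)
    rw [← M.sq, d2, o, Complex.ofReal_re] at n
    exact lt_asymm n this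
  exact P011LT.PSimple.congr e (I.symm.ps (I'.ps (h3 k K π a b' c' d y D.ker M' S p3 s)))

end Vale.Agent.P011LH
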