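import Vale.Agent.P011LH.Pair

/-!
P011 (helper1): the model of a datum with two opposite points.
-/

set_option linter.all false

namespace Vale.Agent.P011LH

open Vale.Agent.P011.D4 Vale.Agent.P011.D4.Oct Vale.Agent.P011.MPQ Vale.Agent.P011LD
open Equiv Function Vale.Agent.P011L

variable {k K : Type} [Field k] [Field K] [Algebra k K] {a b c a' b' c' a'' b'' c'' : Kˣ}
  {σ τ : K ≃ₐ[k] K} {π : (K ≃ₐ[k] K) →* Perm (Fin 3)}

theorem Pr.cancel {X : Type} {f g : X → WW a b c} {T : WW a b c → WW a' b' c'}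
    (hT : Sim (1 : K ≃ₐ[k] K) 1 T) (h : Pr (fun x => T (f x)) fun x => T (g x)) : Pr f g :=
  hT.elim fun _ hT => h.imp fun u hu x => hT.bij.1 ((hu x).trans (hT.usmul u _).symm)

theorem Pr.left' {X : Type} {f g : X → WW a b c} {ρ} {p : WW a b c → WW a' b' c'} (hp : Sim σ ρ p)
    (h : Pr f g) : Pr (fun x => p (f x)) fun x => p (g x) := hp.elim fun _ hp => h.left hp

variable [NeZero (2 : K)] {d e : K} {y : RR K}

/-- the element `e₊ + t e₋` as an octonion -/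
def eo (d t : K) : Oct a b c := ⟨et d t, 0⟩

omit [NeZero (2 : K)] in
theorem eo_eq (t : K) : (eo d t : Oct a b c) = ((1 + t) / 2) • 1 + ((1 - t) / (2 * d)) • gi := by
  apply ext8 <;> simp [eo, et, gi]

theorem Hm.eo {α : Oct a b' c' → Oct a b c} (h : Hm σ α) (hi : α gi = gi) (t : K) :
    α (eo d t) = eo (σ d) (σ t) := by
  simp only [eo_eq, h.add, h.smul, h.one, hi, map_div₀, map_add, map_sub, map_mul, map_one,
    map_ofNat]

omit [NeZero (2 : K)] in
theorem eo_assoc (s t : K) (v : Oct a b c) : star (eo d s) * v * eo d t = star (eo d s) * (v * eo d t) := by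
  have : (star (et d s) : Qt a b) * star (et d t) = star (et d t) * star (et d s) := by
    ext <;> simp [et] <;> ring
  exact Oct.ext (by simp [eo, mul_assoc]) (by simp [eo, mul_assoc, this])

theorem y_ne (hy : y 0 * y 1 * y 2 = 1) (i) : y i ≠ 0 := fun e => by
  rw [← prod3 y i, e, zero_mul, zero_mul] at hy
  exact zero_ne_one hy

theorem tw_eq (hd : d ^ 2 = a) (hy : y 0 * y 1 * y 2 = 1) (x : WW a b c) (i) :
    tw c d y x i = star (eo d (y (i + 1))) * x i * eo d (y (i + 2)) := by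
  refine Oct.ext (by simp [tw, gq, eo]) ?_
  have e : y (i + 2) * y (i + 1) = (y i)⁻¹ :=
    eq_inv_of_mul_eq_one_left (by rw [← hy, ← prod3 y i]; ring)
  simp only [tw, gq, eo, snd_mul, fst_mul, snd_star, fst_star, neg_zero, zero_mul, mul_zero,
    zero_add, add_zero, nrd_et hd, mul_assoc, ← star_mul, et_mul hd, e,
    star_et' hd (inv_ne_zero (y_ne hy i)), inv_inv, mul_smul_comm, one_div]

theorem as_tw {α : Oct a b' c' → Oct a b c} (h : Hm σ α) (hi : α gi = gi) (hd : d ^ 2 = a)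
    (hd' : σ d ^ 2 = a) (hy : y 0 * y 1 * y 2 = 1) {ρ} (hρ : ac σ ρ y = y) (x : WW a b' c') :
    as ρ (fun _ => α) (tw c' d y x) = tw c (σ d) y (as ρ (fun _ => α) x) := ext_perm ρ fun i => by
  have e : ∀ j, σ (y j) = y (ρ j) := fun j => by rw [← ac_perm (π := ρ), hρ]
  rw [as_perm, tw_eq hd hy, tw_eq hd' hy, as_perm, h.mul, h.mul, h.star, h.eo hi, h.eo hi, e, e]
  rcases perm_cases ρ with ⟨s, p⟩ | ⟨s, p⟩
  · rw [(p i).1, (p i).2, cj_even s, cj_even s]
  · rw [(p i).1, (p i).2, cj_odd s, cj_odd s, star_mul, star_mul, star_star, eo_assoc]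

theorem tw_e (hd : d ^ 2 = a) (hy : y 0 * y 1 * y 2 = 1) (s : RR K) :
    tw c (-d) y (s • fun _ => (eo d 0 : Oct a b c)) = (fun i => s i * y (i + 2) : RR K) • fun _ => eo d 0 := by
  have h2 : (2 : K) ≠ 0 := NeZero.ne 2
  have := d_ne hd
  funext i
  rw [tw_eq ((neg_sq d).trans hd) hy]
  apply ext8 <;> simp [eo, et, ← hd] <;> field_simp <;> ring

theorem tw_e' (hd : d ^ 2 = a) (hy : y 0 * y 1 * y 2 = 1) (s : RR K) :
    tw c (-d) y (s • fun _ => (eo (-d) 0 : Oct a b c)) =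
      (fun i => s i * y (i + 1) : RR K) • fun _ => eo (-d) 0 := by
  have h2 : (2 : K) ≠ 0 := NeZero.ne 2
  have := d_ne hd
  funext i
  rw [tw_eq ((neg_sq d).trans hd) hy]
  apply ext8 <;> simp [eo, et, ← hd] <;> field_simp <;> ring

theorem star_eo (t : K) : star (eo d t : Oct a b c) = eo (-d) t :=
  Oct.ext (star_et t) neg_zero

theorem eo_add : (eo d 0 : Oct a b c) + eo (-d) 0 = 1 := by
  have h2 : (2 : K) ≠ 0 := NeZero.ne 2
  apply ext8 <;> simp [eo, et]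
  field_simp
  ring

theorem gi_eq (hd : d ≠ 0) : (gi : Oct a b c) = d • (eo d 0 - eo (-d) 0) := by
  have h2 : (2 : K) ≠ 0 := NeZero.ne 2
  apply ext8 <;> simp [eo, et, gi]
  field_simp
  ring

open Classical in
/-- the twist of the model -/
noncomputable def tq (c : Kˣ) (d : K) (y : RR K) (σ : K ≃ₐ[k] K) (x : WW a b c) : WW a b c :=
  if σ d = d then x else tw c d y x

omit [NeZero (2 : K)] in
theorem mo_eq (x : WW a b c) : mo π d y σ x = tq c d y σ (std π σ x) := rfl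

theorem tq_sim (hd : d ^ 2 = a) (hy : y 0 * y 1 * y 2 = 1) :
    Sim (1 : K ≃ₐ[k] K) 1 (tq c d y σ : WW a b c → _) := by
  by_cases s : σ d = d
  · exact Sim.pr ⟨1, sm_id⟩ (Pr.of_eq fun x => if_pos s)
  · exact (tw_sim hd hy).pr (Pr.of_eq fun x => if_neg s)

theorem tq_mul (hd : d ^ 2 = a) (hy : y 0 * y 1 * y 2 = 1) (hσ : σ d = d ∨ σ d = -d)
    (hτ : τ d = d ∨ τ d = -d) {f : WW a b c → WW a b c}
    (hf : ∀ x, f (tw c d y x) = tw c (σ d) y (f x)) :
    Pr (fun x => tq c d y σ (f (tq c d y τ x))) fun x => tq c d y (σ * τ) (f x) := by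
  have n := neg_ne hd
  rcases hσ with s | s <;> rcases hτ with t | t <;>
    simp only [tq, AlgEquiv.mul_apply, s, t, map_neg, hf, neg_neg, n, if_true, if_false]
  exacts [Pr.refl _, Pr.refl _, Pr.refl _, (tw_tw hd hy).right f]

variable [Algebra.IsAlgebraic k K] {P : (K ≃ₐ[k] K) → WW a b c → WW a b c}

/-- the datum has a model -/
def Mo (π : (K ≃ₐ[k] K) →* Perm (Fin 3)) (d : K) (P : (K ≃ₐ[k] K) → WW a b c → WW a b c) : Prop :=
  ∃ (a' b' c' : Kˣ) (y : RR K), Md π a' b' c' d y ∧ Iso ⊤ (mo π d y : _ → WW a' b' c' → _) P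

omit [NeZero (2 : K)] [Algebra.IsAlgebraic k K] in
theorem Mo.iso {P' : (K ≃ₐ[k] K) → WW a' b' c' → WW a' b' c'} (h : Mo π d P) (i : Iso ⊤ P P') :
    Mo π d P' := by
  obtain ⟨_, _, _, y, h1, h2⟩ := h
  exact ⟨_, _, _, y, h1, h2.trans i⟩

theorem mo_coord (h : EX π P) (pm : ∀ σ : K ≃ₐ[k] K, σ d = d ∨ σ d = -d) (hd : d ^ 2 = a)
    (hy : y 0 * y 1 * y 2 = 1) (fy : ∀ σ, ac σ (π σ) y = y)
    (u : Ud π d y P (fun _ => eo d 0) fun _ => eo (-d) 0) : Mo π d P := by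
  have hd' := (neg_sq d).trans hd
  have o : (1 : WW a b c) = (fun _ => eo d 0) + fun _ => eo (-d) 0 := funext fun _ => eo_add.symm
  have ex : ∀ σ, ∃ f : WW a b c → WW a b c, Sim σ (π σ) f ∧ (σ d = d → f = P σ) ∧
      Pr (P σ) (fun x => tq c d y σ (f x)) ∧ (f fun _ => eo d 0) = (fun _ => cj (π σ) (eo (σ d) 0)) ∧
      (f fun _ => eo (-d) 0) = fun _ => cj (π σ) (eo (-σ d) 0) := fun σ => by
    by_cases s : σ d = d
    · refine ⟨P σ, ⟨1, h.sm σ⟩, fun _ => rfl, Pr.of_eq fun x => (if_pos s).symm, ?_⟩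
      rcases perm_cases (π σ) with ⟨e, -⟩ | ⟨e, -⟩
      · simpa only [cj_even e, s] using (u.pos σ s).1 e
      · simpa only [cj_odd e, s, star_eo, neg_neg] using (u.pos σ s).2 e
    · obtain ⟨w, p, q, h1, h2, h3⟩ := u.neg σ s
      obtain ⟨l, hl⟩ := tw_sim (k := k) (b := b) (c := c) hd hy
      have e1 : w • ((fun i => p i * y (i + 2) : RR K) • (fun _ => eo d 0 : WW a b c)) =
          fun _ => eo d 0 := funext fun i => by rw [usm, rsm, smul_smul, (h1 i).1, one_smul]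
      have e2 : w • ((fun i => q i * y (i + 1) : RR K) • (fun _ => eo (-d) 0 : WW a b c)) =
          fun _ => eo (-d) 0 := funext fun i => by rw [usm, rsm, smul_smul, (h1 i).2, one_smul]
      refine ⟨fun x => w • tw c (-d) y (P σ x),
        ((tw_sim hd' hy).comp ⟨1, h.sm σ⟩).pr (pr_smul' _ _), fun e => absurd e s,
        ((Pr.of_eq fun x => if_neg s).trans (((pr_smul' w _).left hl).trans
          ((tw_tw hd hy).right (P σ)))).symm, ?_⟩
      rcases perm_cases (π σ) with ⟨e, -⟩ | ⟨e, -⟩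
      · simp only [cj_even e, (pm σ).resolve_left s, neg_neg, h2 e, tw_e hd hy, tw_e' hd hy, e1, e2,
          and_self]
      · simp only [cj_odd e, (pm σ).resolve_left s, neg_neg, h3 e, tw_e hd hy, tw_e' hd hy, e1, e2,
          star_eo, and_self]
  choose Ψ s1 s2 s3 s4 s5 using ex
  have s6 : ∀ σ, Ψ σ 1 = 1 := fun σ => (s1 σ).elim fun l hl => by
    rw [o, hl.add, s4, s5, ← o]
    exact funext fun i => by rw [Pi.add_apply, ← cj_add, eo_add, cj_unit]; rfl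
  have s7 : ∀ σ α, Hm σ α → Ψ σ = dg (π σ) α → α gi = gi := fun σ α h1 h2 => by
    have e1 := congrFun (s4 σ) 0
    have e2 := congrFun (s5 σ) 0
    rw [h2] at e1 e2
    rw [gi_eq (d_ne hd), h1.smul, h1.cm.sub 0, cj_bij.1 e1, cj_bij.1 e2,
      ← gi_eq ((map_ne_zero σ).2 (d_ne hd)), ← gi_eq (d_ne hd)]
  have s8 : ∀ σ : K ≃ₐ[k] K, σ d ^ 2 = a := fun σ => by rcases pm σ with e | e <;> rwa [e]
  have S : Sl ⊤ Ψ := by
    refine ⟨fun σ _ => (s1 σ).elim fun _ h => h.add, fun σ _ => (s1 σ).elim fun _ h => h.ksmul,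
      fun σ _ τ _ => ?_, fun x => ((h.cont x).and (Op.fix ⊤ d)).imp fun σ _ e => by
        rw [s2 σ e.2, e.1]⟩
    obtain ⟨l, hl⟩ := s1 σ
    obtain ⟨-, α, a1, a2⟩ := hl.unit (s6 σ)
    have e1 := (tq_mul (τ := τ) hd hy (pm σ) (pm τ) (f := Ψ σ) fun x => by
      rw [a2, as_tw a1 (s7 σ α a1 a2) hd (s8 σ) hy (fy σ)]).right (Ψ τ)
    have e2 := ((s3 _).symm.trans ((h.mul σ τ).symm.trans (((s3 τ).left (h.sm σ)).trans
      ((s3 σ).right _)))).trans e1
    exact (Pr.cancel (tq_sim hd hy) e2).eq (x0 := 1) (by rw [s6, s6, s6]) fun i => by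
      rw [s6, s6]; exact oct_ne
  obtain ⟨α, a1, a2⟩ := unit_act S (fun σ _ => s1 σ) fun σ _ => s6 σ
  obtain ⟨b', c', β, b1, b2, b3⟩ := trip a1 (fun σ s => (a2 σ s).1) (i := gi) (a' := a)
    (fun σ s => s7 σ _ (a2 σ s).1 (a2 σ s).2) (by simp [bil_eq, gi]) (by simp [Oct.norm, nrd, gi])
  refine ⟨a, b', c', y, ⟨fun σ => (b3 σ trivial).1, fun σ => (b3 σ trivial).2.1,
    fun σ => (b3 σ trivial).2.2.1, hd, fy, hy⟩, _, ⟨_, b1.sm 1⟩, fun σ s =>
      (Pr.of_eq fun x => ?_).trans ((s3 σ).right _).symm⟩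
  rw [(a2 σ s).2, dg_as b1 (b3 σ s).2.2.2, mo_eq, tq, tq]
  split_ifs
  exacts [rfl, as_tw b1 b2 hd hd hy rfl _]

theorem mo_ud [IsAlgClosed K] (h : EX π P) (pm : ∀ σ : K ≃ₐ[k] K, σ d = d ∨ σ d = -d) (d0 : d ≠ 0)
    (hy : y 0 * y 1 * y 2 = 1) (fy : ∀ σ, ac σ (π σ) y = y) {U V : WW a b c}
    (u : Ud π d y P U V) : Mo π d P := by
  obtain ⟨φ, f1, f2⟩ := move (k := k) u.unit.1 u.unit.2
  have g := f1.inv.congr rfl rfl inv_one.symm
  have u1 := Ud.tr g (U := φ U) (V := φ V) (by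
    rwa [← f1.le_apply, ← f1.le_apply, f1.le.symm_apply_apply, f1.le.symm_apply_apply])
  obtain ⟨p, p1, p2, p3, p4⟩ := u1.const (by rw [← f1.add, f2])
  rw [p1, p2] at u1
  have p5 : bil p (star p) = 1 := by
    have := Oct.norm_add p (star p)
    rw [p3, Oct.norm_star, p4, Oct.norm_one, zero_add, zero_add] at this
    exact this.symm
  obtain ⟨b', c', β, b1, b2, -⟩ := trip (k := k) (Γ := ⊥) (α := fun _ x => x)
    ⟨fun _ _ _ _ => rfl, fun σ s _ _ => by rw [Subgroup.mem_bot.1 s]; rfl, fun _ _ _ _ _ => rfl,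
      fun _ => ⟨∅, fun _ _ _ => rfl⟩⟩
    (fun σ s => by
      rw [Subgroup.mem_bot.1 s]
      exact ⟨fun _ _ => rfl, fun _ _ => rfl, bijective_id, fun _ _ => rfl, fun _ => rfl⟩)
    (i := d • (p - star p)) (a' := Units.mk0 (d ^ 2) (pow_ne_zero 2 d0)) (fun _ _ => rfl)
    (by rw [bil_smul_left, bil_sub_left, bil_star_left, star_one, sub_self, mul_zero])
    (by rw [Oct.norm_smul, Oct.norm_sub, Oct.norm_star, p4, p5]; simp)
  have b3 : β (eo d 0) = p := by
    have h2 : (2 : K) ≠ 0 := NeZero.ne 2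
    rw [eo_eq, b1.add, b1.smul, b1.smul, b1.one, b2, ← p3, smul_smul, AlgEquiv.one_apply,
      AlgEquiv.one_apply, show (1 - 0) / (2 * d) * d = (1 + 0) / 2 by field_simp; ring, ← smul_add,
      add_add_sub_cancel, ← two_smul K, smul_smul, add_zero, one_div, inv_mul_cancel₀ h2, one_smul]
  have e1 : as 1 (fun _ => β) (fun _ => eo d 0) = fun _ => p :=
    funext fun i => (as_one _ _ _).trans b3
  have e2 : as 1 (fun _ => β) (fun _ => eo (-d) 0) = fun _ => star p :=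
    funext fun i => (as_one _ _ _).trans (by rw [← star_eo, b1.star, b3])
  rw [← e1, ← e2] at u1
  exact ((mo_coord ((h.tr g).tr (b1.sm 1)) pm rfl hy fy (u1.tr (b1.sm 1))).iso
    (iso_tr (fun σ x => g.le.symm (P σ (f1.le.symm x))) (b1.sm 1))).iso (iso_tr P g)

end Vale.Agent.P011LH
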