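import Vale.Agent.P011LH.Lift

/-!
P011 (helper1): opposite singular points.
-/

set_option linter.all false

namespace Vale.Agent.P011LH

open Vale.Agent.P011.D4 Vale.Agent.P011.D4.Oct Vale.Agent.P011.MPQ Vale.Agent.P011LD
open Equiv Function Vale.Agent.P011L

variable {k K : Type} [Field k] [Field K] [Algebra k K] {a b c a' b' c' a'' b'' c'' : Kˣ}
  {σ τ : K ≃ₐ[k] K} {π : (K ≃ₐ[k] K) →* Perm (Fin 3)}

/-- the centre -/
def ZZ (K : Type) [Field K] : Subgroup (RR K)ˣ where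
  carrier := {u | (∀ i, u.1 i ^ 2 = 1) ∧ u.1 0 * u.1 1 * u.1 2 = 1}
  mul_mem' {u v} hu hv := ⟨fun i => by rw [Units.val_mul, Pi.mul_apply, mul_pow, hu.1, hv.1, one_mul],
    by simp only [Units.val_mul, Pi.mul_apply]; linear_combination v.1 0 * v.1 1 * v.1 2 * hu.2 + hv.2⟩
  one_mem' := ⟨fun _ => one_pow _, by simp⟩
  inv_mem' {u} hu := ⟨fun i => by rw [uinv, inv_pow, hu.1, inv_one],
    by rw [uinv, uinv, uinv, ← mul_inv, ← mul_inv, hu.2, inv_one]⟩

theorem Sm.zz {ρ} {f g : WW a b c → WW a' b' c'} (hf : Sm σ ρ 1 f) (hg : Sm σ ρ 1 g) {u : (RR K)ˣ}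
    (h : ∀ x, f x = u • g x) : u ∈ ZZ K := by
  have e := (hg.scale u).uniq (funext h ▸ hf)
  rw [mul_one, mul_inv_eq_one] at e
  have e1 : ∀ i, u.1 i = u.1 (i + 1) * u.1 (i + 2) := fun i => congrFun (congrArg Units.val e) i
  have e2 : u.1 0 * u.1 1 * u.1 2 = 1 :=
    mul_left_cancel₀ (mul_ne_zero (mul_ne_zero (une u 0) (une u 1)) (une u 2)) (by
      have a0 : u.1 0 = u.1 1 * u.1 2 := e1 0
      have a1 : u.1 1 = u.1 2 * u.1 0 := e1 1
      have a2 : u.1 2 = u.1 0 * u.1 1 := e1 2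
      linear_combination (-(u.1 2 * u.1 0) * (u.1 0 * u.1 1)) * a0 - u.1 0 * (u.1 0 * u.1 1) * a1 -
        u.1 0 * u.1 1 * a2)
  exact ⟨fun i => by rw [← e2, ← prod3 u.1 i, mul_assoc, ← e1, sq], e2⟩

/-- exact data -/
structure EX (π : (K ≃ₐ[k] K) →* Perm (Fin 3)) (P : (K ≃ₐ[k] K) → WW a b c → WW a b c) : Prop where
  sm : ∀ σ, Sm σ (π σ) 1 (P σ)
  mul : ∀ σ τ, Pr (fun x => P σ (P τ x)) (P (σ * τ))
  cont : ∀ x, Op ⊤ fun σ => P σ x = x

variable {P : (K ≃ₐ[k] K) → WW a b c → WW a b c}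

theorem EX.mul' (h : EX π P) (σ τ) : ∃ u ∈ ZZ K, ∀ x, P σ (P τ x) = u • P (σ * τ) x :=
  (h.mul σ τ).imp fun _ hu => ⟨(((h.sm σ).comp (h.sm τ)).congr rfl (map_mul π σ τ)
    (by rw [map_one, one_mul])).zz (h.sm _) hu, hu⟩

theorem EX.bil (h : EX π P) (σ x y i) : bil (P σ x (π σ i)) (P σ y (π σ i)) = σ (bil (x i) (y i)) := by
  rw [(h.sm σ).bil, sh_val]; simp

theorem iso_tr (P : (K ≃ₐ[k] K) → WW a b c → WW a b c) {l} {f : WW a' b' c' → WW a b c}
    (hf : Sm (1 : K ≃ₐ[k] K) 1 l f) : Iso ⊤ (fun σ x => hf.le.symm (P σ (f x))) P :=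
  ⟨f, ⟨l, hf⟩, fun _ _ => Pr.of_eq fun _ => hf.le.apply_symm_apply _⟩

theorem mul_tr (h : ∀ σ τ, Pr (fun x => P σ (P τ x)) (P (σ * τ))) {l} {f : WW a' b' c' → WW a b c}
    (hf : Sm (1 : K ≃ₐ[k] K) 1 l f) (σ τ) :
    Pr (fun x => hf.le.symm (P σ (f (hf.le.symm (P τ (f x)))))) fun x => hf.le.symm (P (σ * τ) (f x)) :=
  (Pr.of_eq fun x => by rw [← hf.le_apply (hf.le.symm _), hf.le.apply_symm_apply]).trans
    (((h σ τ).right f).left hf.inv)

theorem EX.tr (h : EX π P) {f : WW a' b' c' → WW a b c} (hf : Sm (1 : K ≃ₐ[k] K) 1 1 f) :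
    EX π fun σ x => hf.le.symm (P σ (f x)) :=
  ⟨fun σ => (hf.inv.comp ((h.sm σ).comp hf)).congr rfl rfl (by simp), mul_tr h.mul hf,
    fun x => (h.cont (f x)).imp fun σ _ e => by rw [e]; exact hf.le.symm_apply_apply x⟩

/-- two opposite points -/
structure Pa (d : K) (y : RR K) (P : (K ≃ₐ[k] K) → WW a b c → WW a b c) (x x' : WW a b c) :
    Prop where
  p1 : pr x x = 0
  p2 : pr x' x' = 0
  n1 : ∀ i, norm (x i) = 0
  n2 : ∀ i, norm (x' i) = 0
  bl : ∀ i, bil (x i) (x' i) = 1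
  pos : ∀ σ, σ d = d → P σ x = x ∧ P σ x' = x'
  neg : ∀ σ, σ d ≠ d → ∃ (θ : (RR K)ˣ) (D : K), P σ x = θ • x' ∧ P σ x' = θ⁻¹ • x ∧
    ∀ i, y i * θ.1 i ^ 2 = D

theorem exists_pa (h : EX π P) {d : K} (pm : ∀ σ : K ≃ₐ[k] K, σ d = d ∨ σ d = -d) (hτ : τ d ≠ d)
    {x : WW a b c} (h1 : ∀ σ, σ d = d → P σ x = x) (h2 : pr x x = 0) (h3 : ∀ i, norm (x i) = 0)
    (h4 : ∀ i, bil (x i) (P τ x i) ≠ 0) :
    ∃ y x x', (∀ σ, ac σ (π σ) y = y) ∧ y 0 * y 1 * y 2 = 1 ∧ Pa d y P x x' := by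
  obtain ⟨β, hβ⟩ : ∃ β : (RR K)ˣ, ∀ i, β.1 i = bil (x i) (P τ x i) := ⟨mku _ h4, fun _ => rfl⟩
  obtain ⟨x', hx⟩ : ∃ x', P τ x = β • x' := ⟨β⁻¹ • P τ x, (smul_inv_smul _ _).symm⟩
  have bl : ∀ i, bil (x i) (x' i) = 1 := fun i => mul_left_cancel₀ (une β i) (by
    rw [← bil_smul_right, ← usm, ← hx, mul_one, hβ])
  have x0 : ∀ i, x i ≠ 0 := fun i e => by simpa [e] using bl i
  have x1 : ∀ i, x' i ≠ 0 := fun i e => by simpa [e] using bl i
  have t1 := (pm τ).resolve_left hτ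
  have t2 : τ⁻¹ d = -d := by
    rw [← neg_neg d, ← t1, map_neg, ← AlgEquiv.mul_apply, inv_mul_cancel, t1, neg_neg]; rfl
  have pos : ∀ σ, σ d = d → P σ x' = x' ∧ ∃ z ∈ ZZ K, au σ (π σ) β = z * β := fun σ s => by
    obtain ⟨u, u1, u2⟩ := h.mul' σ τ
    obtain ⟨v, v1, v2⟩ := h.mul' τ (τ⁻¹ * (σ * τ))
    have e := v2 x
    rw [mul_inv_cancel_left, h1 (τ⁻¹ * (σ * τ)) (by
      rw [AlgEquiv.mul_apply, AlgEquiv.mul_apply, t1, map_neg, s, map_neg, t2, neg_neg]),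
      ← inv_smul_eq_iff] at e
    have e1 := u2 x
    rw [← e, hx, (h.sm σ).usmul, ← eq_inv_smul_iff, smul_smul, smul_smul, smul_smul] at e1
    have e2 : (au σ (π σ) β)⁻¹ * u * v⁻¹ * β = 1 := Units.ext (ext_perm (π σ) fun i => by
      have := h.bil σ x x' i
      rwa [h1 σ s, e1, usm, bil_smul_right, bl, bl, mul_one, map_one] at this)
    refine ⟨by rw [e1, e2, one_smul], u * v⁻¹, mul_mem u1 (inv_mem v1), ?_⟩
    rwa [mul_assoc, mul_assoc, inv_mul_eq_one, ← mul_assoc] at e2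
  have neg : ∀ σ, σ d ≠ d → (∃ z ∈ ZZ K, P σ x = (z * β) • x' ∧ P σ x' = (z * β)⁻¹ • x) ∧
      ∃ z ∈ ZZ K, au σ (π σ) β = z * β := fun σ s => by
    have s1 := (pm σ).resolve_left s
    obtain ⟨u, u1, u2⟩ := h.mul' σ τ
    obtain ⟨v, v1, v2⟩ := h.mul' τ (τ⁻¹ * σ)
    have e := v2 x
    rw [mul_inv_cancel_left, h1 (τ⁻¹ * σ) (by rw [AlgEquiv.mul_apply, s1, map_neg, t2, neg_neg]),
      ← inv_smul_eq_iff, hx, smul_smul, eq_comm] at e
    have e1 := u2 x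
    rw [h1 (σ * τ) (by rw [AlgEquiv.mul_apply, t1, map_neg, s1, neg_neg]), hx, (h.sm σ).usmul,
      ← eq_inv_smul_iff, smul_smul] at e1
    have e2 : (au σ (π σ) β)⁻¹ * u * (v⁻¹ * β) = 1 := Units.ext (ext_perm (π σ) fun i => by
      have := h.bil σ x x' i
      rwa [e, e1, usm, usm, bil_smul_right, bil_smul_left, bil_comm, bl, bl, mul_one, map_one] at this)
    refine ⟨⟨v⁻¹, inv_mem v1, e, by rw [e1, eq_inv_of_mul_eq_one_left e2]⟩, u * v⁻¹,
      mul_mem u1 (inv_mem v1), ?_⟩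
    rwa [mul_assoc, inv_mul_eq_one, ← mul_assoc] at e2
  have al : ∀ σ, (∀ i, σ (β.1 i ^ 2) = β.1 (π σ i) ^ 2) ∧
      σ (β.1 0 * β.1 1 * β.1 2) = β.1 0 * β.1 1 * β.1 2 := fun σ => by
    obtain ⟨z, z1, z2⟩ : ∃ z ∈ ZZ K, au σ (π σ) β = z * β := by
      by_cases s : σ d = d
      exacts [(pos σ s).2, (neg σ s).2]
    replace z2 : ac σ (π σ) β.1 = z.1 * β.1 := congrArg Units.val z2
    refine ⟨fun i => by rw [map_pow, ← ac_perm (π := π σ), z2, Pi.mul_apply, mul_pow, z1.1, one_mul], ?_⟩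
    rw [← prod_ac (π := π σ), z2]
    simp only [Pi.mul_apply]
    linear_combination β.1 0 * β.1 1 * β.1 2 * z1.2
  generalize hT : β.1 0 * β.1 1 * β.1 2 = T at al
  have T0 : T ≠ 0 := hT ▸ mul_ne_zero (mul_ne_zero (une β 0) (une β 1)) (une β 2)
  obtain ⟨n, hn⟩ : ∃ n : (RR K)ˣ, ∀ i, n.1 i = T / β.1 i ^ 2 :=
    ⟨mku _ fun i => div_ne_zero T0 (pow_ne_zero 2 (une β i)), fun _ => rfl⟩
  have n1 : ∀ σ, au σ (π σ) n = n := fun σ => Units.ext (ext_perm (π σ) fun i => by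
    rw [au_val, ac_perm, hn, hn, map_div₀, (al σ).1, (al σ).2])
  have q2 : pr x' x' = 0 := by
    have := (h.sm τ).pr_self x
    rw [h2, (h.sm τ).zero, one_smul, hx, usm', pr_smul] at this
    funext i
    have e := (congrFun this i).symm
    rw [rsm, Pi.zero_apply, smul_eq_zero] at e
    exact e.resolve_left (mul_ne_zero (une _ _) (une _ _))
  have q3 : ∀ i, norm (x' i) = 0 := fun j => by
    obtain ⟨i, rfl⟩ := (π τ).surjective j
    have := (h.sm τ).norm x i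
    rw [h3, map_zero, hx, usm, Oct.norm_smul] at this
    simpa [une] using this
  refine ⟨fun i => (β.1 i ^ 2) ^ 3 / T ^ 2, n • x, n⁻¹ • x', fun σ => ext_perm (π σ) fun i => ?_, ?_,
    ?_, ?_, fun i => ?_, fun i => ?_, fun i => ?_, fun σ s => ⟨?_, ?_⟩, fun σ s => ?_⟩
  · rw [ac_perm, map_div₀, map_pow, map_pow σ T, (al σ).1, (al σ).2]
  · field_simp
    rw [← hT]
    ring
  · rw [usm', pr_smul, h2, smul_zero]
  · rw [usm', pr_smul, q2, smul_zero]
  · rw [usm, Oct.norm_smul, h3, mul_zero]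
  · rw [usm, Oct.norm_smul, q3, mul_zero]
  · rw [usm, usm, bil_smul_left, bil_smul_right, bl, uinv, mul_one, mul_inv_cancel₀ (une _ _)]
  · rw [(h.sm σ).usmul, n1, h1 σ s]
  · rw [(h.sm σ).usmul, map_inv, n1, (pos σ s).1]
  · obtain ⟨z, z1, z2, z3⟩ := (neg σ s).1
    refine ⟨n * (z * β) * n, T ^ 2, ?_, ?_, fun i => ?_⟩
    · rw [(h.sm σ).usmul, n1, z2, smul_smul, smul_smul, mul_inv_cancel_right]
    · rw [(h.sm σ).usmul, map_inv, n1, z3, smul_smul, smul_smul]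
      congr 1
      simp only [mul_inv_rev, mul_assoc, inv_mul_cancel, mul_one]
    · have := une β i
      simp only [Units.val_mul, Pi.mul_apply, mul_pow, z1.1 i, hn]
      field_simp

theorem oct_uu {A B C D : Oct a b c} (h1 : B * D = 0) (h2 : A * C = 0) (h3 : bil C B = 1) :
    (C * D) * (A * B) = -star (D * A) := by
  have e1 := mul_star_mul_add' C (star D) B
  rw [← star_mul B, h1, star_zero, zero_mul, add_zero, h3, one_smul, ← star_mul] at e1
  have e2 := star_mul_mul_add (star (C * D)) B A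
  rw [e1, star_star, star_mul C, bil_mul_left', star_star, h2, bil_zero_right, zero_smul] at e2
  rw [star_mul, eq_neg_of_add_eq_zero_left e2]

variable {x x' : WW a b c}

theorem pz (p : pr x x = 0) (i) : x (i + 1) * x (i + 2) = 0 := star_eq_zero.1 (congrFun p i)

theorem pz' (p : pr x x = 0) (i) : x i * x (i + 1) = 0 := by simpa [f21, f22] using pz p (i + 2)

theorem pz'' (p : pr x x = 0) (i) : x (i + 2) * x i = 0 := by simpa [f11, f12] using pz p (i + 1)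

theorem pr_uu (p1 : pr x x = 0) (p2 : pr x' x' = 0) (bl : ∀ i, bil (x i) (x' i) = 1) :
    pr (pr x x') (pr x x') = -pr x' x := funext fun i => by
  simp only [pr, f11, f12, f21, f22, Pi.neg_apply]
  rw [star_mul, star_star, star_star, oct_uu (pz' p2 i) (pz'' p1 i) (bl i)]

theorem pr_uu' [NeZero (2 : K)] (p1 : pr x x = 0) : pr (pr x x') (pr x' x) = 0 := funext fun i => by
  simp only [pr, f11, f12, f21, f22, Pi.zero_apply]
  rw [star_mul, star_star, star_star, moufang, pz p1, mul_zero, zero_mul]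

theorem bil_uu (p1 : pr x x = 0) (bl : ∀ i, bil (x i) (x' i) = 1) (i) :
    bil (pr x x' i) (pr x' x i) = 1 := by
  have := bil_mul_mul (x (i + 1)) (x' (i + 2)) (x' (i + 1)) (x (i + 2))
  rwa [pz p1, bil_zero_right, add_zero, bl, bil_comm (x' _), bl, one_mul, ← bil_star_star] at this

theorem pr_add_left (x y z : WW a b c) : pr (x + y) z = pr x z + pr y z :=
  funext fun i => by simp only [pr, Pi.add_apply, add_mul, star_add]

theorem pr_add_right (x y z : WW a b c) : pr x (y + z) = pr x y + pr x z :=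
  funext fun i => by simp only [pr, Pi.add_apply, mul_add, star_add]

theorem pr_neg_neg (x y : WW a b c) : pr (-x) (-y) = pr x y :=
  funext fun i => by simp only [pr, Pi.neg_apply, neg_mul_neg]

/-- two complementary idempotents -/
structure Ud (π : (K ≃ₐ[k] K) →* Perm (Fin 3)) (d : K) (y : RR K)
    (P : (K ≃ₐ[k] K) → WW a b c → WW a b c) (U V : WW a b c) : Prop where
  uu : pr U U = V
  vv : pr V V = U
  uv : pr U V = 0
  vu : pr V U = 0
  nu : ∀ i, norm (U i) = 0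
  nv : ∀ i, norm (V i) = 0
  bl : ∀ i, bil (U i) (V i) = 1
  pos : ∀ σ, σ d = d → (Perm.sign (π σ) = 1 → P σ U = U ∧ P σ V = V) ∧
    (Perm.sign (π σ) = -1 → P σ U = V ∧ P σ V = U)
  neg : ∀ σ, σ d ≠ d → ∃ (w : (RR K)ˣ) (s t : RR K),
    (∀ i, w.1 i * (s i * y (i + 2)) = 1 ∧ w.1 i * (t i * y (i + 1)) = 1) ∧
    (Perm.sign (π σ) = 1 → P σ U = t • V ∧ P σ V = s • U) ∧
    (Perm.sign (π σ) = -1 → P σ U = s • U ∧ P σ V = t • V)

theorem Pa.ud [NeZero (2 : K)] {d : K} {y : RR K} (h : EX π P) (hy : y 0 * y 1 * y 2 = 1)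
    (q : Pa d y P x x') : Ud π d y P (-pr x x') (-pr x' x) := by
  have b' : ∀ i, bil (x' i) (x i) = 1 := fun i => (bil_comm _ _).trans (q.bl i)
  refine ⟨by rw [pr_neg_neg, pr_uu q.p1 q.p2 q.bl], by rw [pr_neg_neg, pr_uu q.p2 q.p1 b'],
    by rw [pr_neg_neg, pr_uu' q.p1], by rw [pr_neg_neg, pr_uu' q.p2],
    fun i => by simp [pr, Oct.norm_mul, q.n1], fun i => by simp [pr, Oct.norm_mul, q.n1],
    fun i => by rw [Pi.neg_apply, Pi.neg_apply, bil_neg_left, bil_neg_right, neg_neg,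
      bil_uu q.p1 q.bl], fun σ s => ⟨fun e => ?_, fun e => ?_⟩, fun σ s => ?_⟩
  · simp only [(h.sm σ).neg, (h.sm σ).pr_even e, one_smul, q.pos σ s, and_self]
  · simp only [(h.sm σ).neg, (h.sm σ).pr_odd e, one_smul, q.pos σ s, and_self]
  · obtain ⟨θ, D, h1, h2, h3⟩ := q.neg σ s
    have y0 : ∀ i, y i ≠ 0 := fun i e => by
      rw [← prod3 y i, e, zero_mul, zero_mul] at hy
      exact zero_ne_one hy
    have D0 : D ≠ 0 := h3 0 ▸ mul_ne_zero (y0 0) (pow_ne_zero 2 (une θ 0))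
    refine ⟨mku (fun i => θ.1 (i + 1) * θ.1 (i + 2) / D) fun i =>
      div_ne_zero (mul_ne_zero (une _ _) (une _ _)) D0, fun i => (θ⁻¹).1 (i + 1) * θ.1 (i + 2),
      fun i => θ.1 (i + 1) * (θ⁻¹).1 (i + 2), fun i => ?_, fun e => ?_, fun e => ?_⟩
    · have := une θ (i + 1)
      have := une θ (i + 2)
      simp only [mku, uinv]
      constructor <;> field_simp
      · rw [← h3 (i + 2), mul_comm]
      · rw [← h3 (i + 1), mul_comm]
    · simp only [(h.sm σ).neg, (h.sm σ).pr_even e, one_smul, h1, h2, usm', pr_smul, smul_neg,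
        and_self]
    · simp only [(h.sm σ).neg, (h.sm σ).pr_odd e, one_smul, h1, h2, usm', pr_smul, smul_neg,
        and_self]

theorem Ud.tr {d : K} {y : RR K} {U V : WW a' b' c'} {f : WW a' b' c' → WW a b c}
    (hf : Sm (1 : K ≃ₐ[k] K) 1 1 f) (h : Ud π d y P (f U) (f V)) :
    Ud π d y (fun σ x => hf.le.symm (P σ (f x))) U V := by
  have e : ∀ x y, f (pr x y) = pr (f x) (f y) := fun x y => by
    rw [hf.pr_even (map_one _), one_smul]
  have e1 : ∀ x, hf.le.symm (f x) = x := hf.le.symm_apply_apply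
  have e2 : ∀ (s : RR K) x, hf.le.symm (s • f x) = s • x := fun s x => by rw [map_smul, e1]
  refine ⟨hf.bij.1 (by rw [e, h.uu]), hf.bij.1 (by rw [e, h.vv]), hf.bij.1 (by rw [e, h.uv, hf.zero]),
    hf.bij.1 (by rw [e, h.vu, hf.zero]), fun i => ?_, fun i => ?_, fun i => ?_,
    fun σ s => ⟨fun e => ?_, fun e => ?_⟩, fun σ s => ?_⟩
  · simpa [h.nu] using hf.norm U i
  · simpa [h.nv] using hf.norm V i
  · simpa [h.bl, sh_val] using hf.bil U V i
  · simp only [(h.pos σ s).1 e, e1, and_self]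
  · simp only [(h.pos σ s).2 e, e1, and_self]
  · obtain ⟨w, s, t, h1, h2, h3⟩ := h.neg σ s
    exact ⟨w, s, t, h1, fun e => by simp only [h2 e, e2, and_self],
      fun e => by simp only [h3 e, e2, and_self]⟩

theorem Ud.unit {d : K} {y : RR K} {U V : WW a b c} (h : Ud π d y P U V) :
    (∀ i, norm ((U + V) i) = 1) ∧ pr (U + V) (U + V) = U + V :=
  ⟨fun i => by rw [Pi.add_apply, Oct.norm_add, h.nu, h.nv, h.bl, zero_add, zero_add], by
    rw [pr_add_left, pr_add_right, pr_add_right, h.uu, h.uv, h.vu, h.vv, add_zero, zero_add,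
      add_comm]⟩

theorem Ud.const {d : K} {y : RR K} {U V : WW a b c} (h : Ud π d y P U V) (e : U + V = 1) :
    ∃ p, U = (fun _ => p) ∧ V = (fun _ => star p) ∧ p + star p = 1 ∧ norm p = 0 := by
  have e1 : pr 1 U = V := by rw [← e, pr_add_left, h.uu, h.vu, add_zero]
  have e2 : pr U 1 = V := by rw [← e, pr_add_right, h.uu, h.uv, add_zero]
  have e3 : ∀ i, star (U (i + 2)) = V i := fun i => by simpa [pr] using congrFun e1 i
  have e4 : ∀ i, star (U (i + 1)) = V i := fun i => by simpa [pr] using congrFun e2 i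
  have e5 : ∀ i, U (i + 1) = U (i + 2) := fun i => star_injective ((e4 i).trans (e3 i).symm)
  have e6 : ∀ i, U i = U 0 := fun i => by
    fin_cases i
    exacts [rfl, (e5 2).symm, e5 1]
  have e7 : ∀ i, V i = star (U 0) := fun i => by rw [← e3, e6]
  exact ⟨U 0, funext e6, funext e7, e7 0 ▸ congrFun e 0, h.nu 0⟩

end Vale.Agent.P011LH
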